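import Vale.Agent.N353.Op

/-! # N353: transfer to an arbitrary model of the Hilbert space -/

open MeasureTheory Filter Topology

namespace Vale.Agent.N353

open Vale.Agent.P353 Vale.Agent.P353.BFSS Vale.Agent.P353.H121
open Vale.Agent.P353B91 (GH)

universe u

variable {N d : ℕ} {F : Type u} [NormedAddCommGroup F] [InnerProductSpace ℂ F]
  {M : BFSS.Model N d F} {K : Subgroup (SU N)} (m : ℝ)
  {E : Type u} [NormedAddCommGroup E] [InnerProductSpace ℂ E] {ι : E → Conf d → F}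

theorem inv_congr {f g : Conf d → F} (h : ∀ᵐ x ∂leb d, f x = g x) (hg : Invariant M K g) :
    Invariant M K f := fun U hU => by
  filter_upwards [h, (act_mp M U).quasiMeasurePreserving.ae h, hg U hU] with x e1 e2 e3
  rw [e1, e2, e3]

theorem ex_space : IsSpace M K (fun Ψ : Sp M K => (Ψ.1 : Conf d → F)) where
  memLp Ψ := Lp.memLp Ψ.1
  inv Ψ := Ψ.2
  onto f hf h := ⟨⟨hf.toLp f, inv_congr hf.coeFn_toLp h⟩, hf.coeFn_toLp⟩
  inner_eq Φ Ψ := L2.inner_def Φ.1 Ψ.1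

theorem ex_equiv (h : IsSpace M K ι) : ∃ e : E ≃ₗ[ℂ] Sp M K, Continuous e ∧
    (∀ Φ Ψ, inner ℂ (e Φ) (e Ψ) = inner ℂ Φ Ψ) ∧ ∀ Ψ, ∀ᵐ x ∂leb d, (e Ψ).1 x = ι Ψ x := by
  let f : E → Sp M K := fun Ψ =>
    ⟨(h.memLp Ψ).toLp (ι Ψ), inv_congr (h.memLp Ψ).coeFn_toLp (h.inv Ψ)⟩
  have h1 : ∀ Φ Ψ, inner ℂ (f Φ) (f Ψ) = inner ℂ Φ Ψ := fun Φ Ψ =>
    (inner_toLp (h.memLp Φ) (h.memLp Ψ)).trans (h.inner_eq Φ Ψ).symm
  have h2 : Function.Surjective f := by
    intro y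
    obtain ⟨Ψ, hΨ⟩ := h.onto y.1 (Lp.memLp y.1) y.2
    refine ⟨Ψ, Subtype.ext (Lp.ext ?_)⟩
    filter_upwards [(h.memLp Ψ).coeFn_toLp, hΨ] with x e1 e2
    exact e1.trans e2
  have h3 : ∀ a b : Sp M K, (∀ z, inner ℂ (f z) a = inner ℂ (f z) b) → a = b := by
    intro a b hab
    refine ext_inner_left ℂ fun v => ?_
    obtain ⟨z, rfl⟩ := h2 v
    exact hab z
  let g : E →ₗ[ℂ] Sp M K :=
    { toFun := f
      map_add' := fun a b => h3 _ _ fun z => by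
        rw [inner_add_right, h1, h1, h1, inner_add_right]
      map_smul' := fun c a => h3 _ _ fun z => by
        rw [RingHom.id_apply, inner_smul_right, h1, h1, inner_smul_right] }
  let g' : E →ₗᵢ[ℂ] Sp M K := g.isometryOfInner h1
  exact ⟨LinearEquiv.ofBijective g ⟨g'.injective, h2⟩, g'.continuous, h1,
    fun Ψ => (h.memLp Ψ).coeFn_toLp⟩

section

variable (e : E ≃ₗ[ℂ] Sp M K) (h1 : ∀ Φ Ψ, inner ℂ (e Φ) (e Ψ) = inner ℂ Φ Ψ)
  (h2 : ∀ Ψ, ∀ᵐ x ∂leb d, (e Ψ).1 x = ι Ψ x)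

/-- the pull-back of the closed graph -/
noncomputable def G2 : Submodule ℂ (E × L16 d F) :=
  (G1 M K m).comap (e.toLinearMap.prodMap LinearMap.id)

theorem mem_G2 (p : E × L16 d F) : p ∈ G2 m e ↔ (e p.1, p.2) ∈ G1 M K m := Iff.rfl

include h1 in
theorem gh_iff (x y : E) : GH (G2 m e) x y ↔ GH (G1 M K m) (e x) (e y) := by
  refine exists_congr fun w => and_congr Iff.rfl ⟨fun h p hp => ?_, fun h p hp => ?_⟩
  · obtain ⟨a, ha⟩ := e.surjective p.1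
    have h3 : (a, p.2) ∈ G2 m e := by
      rw [mem_G2, ha]
      exact hp
    refine (h _ h3).trans ?_
    rw [← h1, ha]
  · exact (h _ ((mem_G2 m e p).1 hp)).trans (h1 _ _)

include h1 in
theorem G2_dense (y : E) (h : ∀ p ∈ G2 m e, inner ℂ p.1 y = 0) : y = 0 := by
  refine e.map_eq_zero_iff.1 (G1_dense m _ fun p hp => ?_)
  obtain ⟨a, ha⟩ := e.surjective p.1
  have h3 : (a, p.2) ∈ G2 m e := by
    rw [mem_G2, ha]
    exact hp
  rw [← ha]
  exact (h1 _ _).trans (h _ h3)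

include h2 in
theorem approx_iff (u : ℕ → Conf d → F) (Ψ : E) :
    Approx M K (M.massQ m) ι u Ψ ↔ LA M K m u (e Ψ) := by
  have h3 : (fun n => ∫ x, ‖u n x - ι Ψ x‖ ^ 2 ∂leb d) =
      fun n => ∫ x, ‖u n x - (e Ψ).1 x‖ ^ 2 ∂leb d := by
    ext n
    refine integral_congr_ae ?_
    filter_upwards [h2 Ψ] with x hx
    rw [hx]
  unfold LA Approx
  rw [h3]

include h1 h2 in
theorem ham_iff (H : E →ₗ.[ℂ] E) :
    IsHamiltonian M K (M.massQ m) ι H ↔ ∀ x y, (x, y) ∈ H.graph ↔ GH (G2 m e) x y := by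
  have key : ∀ (D : Set E) (q : E → E → ℂ), (∀ Ψ, Ψ ∈ D ↔ ∃ u, Approx M K (M.massQ m) ι u Ψ) →
      (∀ u v Φ Ψ, Approx M K (M.massQ m) ι u Φ → Approx M K (M.massQ m) ι v Ψ →
        Tendsto (fun n => form (M.massQ m) (u n) (v n)) atTop (𝓝 (q Φ Ψ))) → ∀ x y,
      (x ∈ D ∧ ∀ Φ ∈ D, q Φ x = inner ℂ Φ y) ↔ GH (G2 m e) x y := by
    intro D q k1 k2 x y
    have k3 : ∀ Ψ, Ψ ∈ e.symm ⁻¹' D ↔ ∃ u, LA M K m u Ψ := fun Ψ =>
      (k1 _).trans (exists_congr fun u => by rw [approx_iff m e h2, e.apply_symm_apply])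
    have k4 : ∀ u v (Φ Ψ : Sp M K), LA M K m u Φ → LA M K m v Ψ →
        Tendsto (fun n => form (M.massQ m) (u n) (v n)) atTop (𝓝 (q (e.symm Φ) (e.symm Ψ))) := by
      refine fun u v Φ Ψ hu hv => k2 u v _ _ ?_ ?_ <;> rwa [approx_iff m e h2, e.apply_symm_apply]
    rw [gh_iff m e h1, ← assoc_iff m k3 k4, e.surjective.forall]
    simp only [Set.mem_preimage, e.symm_apply_apply, h1]
  constructor
  · rintro ⟨D, q, k1, k2, k3⟩ x y
    exact (k3 x y).trans (key D q k1 k2 x y)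
  · intro h3
    obtain ⟨q, hq⟩ := ex_closure M K m
    have k2 : ∀ u v Φ Ψ, Approx M K (M.massQ m) ι u Φ → Approx M K (M.massQ m) ι v Ψ →
        Tendsto (fun n => form (M.massQ m) (u n) (v n)) atTop (𝓝 (q (e Φ) (e Ψ))) :=
      fun u v Φ Ψ hu hv => hq u v _ _ ((approx_iff m e h2 _ _).1 hu) ((approx_iff m e h2 _ _).1 hv)
    exact ⟨{Ψ | ∃ u, Approx M K (M.massQ m) ι u Ψ}, _, fun _ => Iff.rfl, k2,
      fun x y => (h3 x y).trans (key _ _ (fun _ => Iff.rfl) k2 x y).symm⟩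

end

variable (M K) in
theorem zeroModes (hG : GaussLaw M (M.massQ m)) {n : ℕ} {Φ : Fin n → Conf d → F}
    (hΦ : M.IsVacuumBasis m Φ) : ZeroModes M K (M.massQ m) n := by
  have hF := fdim M
  have hFc : CompleteSpace F := FiniteDimensional.complete ℂ F
  refine ⟨⟨Sp M K, inferInstance, inferInstance, complete_sp M K, _, ex_space⟩,
    fun E _ _ _ ι h => ?_⟩
  obtain ⟨e, h0, e1, e2⟩ := ex_equiv h
  refine ⟨?_, fun H hH => ?_⟩
  · obtain ⟨H, hH⟩ := P353B91.ex_op (G2 m e) (G2_dense m e e1)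
    refine ⟨H, (ham_iff m e e1 e2 H).2 hH, fun H' h' =>
      LinearPMap.eq_of_eq_graph (Submodule.ext fun p => ?_)⟩
    exact ((ham_iff m e e1 e2 H').1 h' p.1 p.2).trans (hH p.1 p.2).symm
  have hH' := (ham_iff m e e1 e2 H).1 hH
  have hsa := P353B91.sa_of (G2 m e)
    ((G0 M K m).isClosed_topologicalClosure.preimage (h0.prodMap continuous_id))
    (G2_dense m e e1) H hH'
  have hk : ∀ x, (x, 0) ∈ H.graph ↔ M.IsGroundState m (e x).1 := fun x => by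
    rw [hH', gh_iff m e e1, map_zero, ker_iff m hG]
  have hk' : ∀ y : H.domain, H y = 0 → M.IsGroundState m (e y.1).1 := fun y hy => by
    have h5 := H.mem_graph y
    rw [hy] at h5
    exact (hk _).1 h5
  refine ⟨hsa.1, hsa.2, ?_, fun y hy => inv_congr ((e2 y.1).mono fun x hx => hx.symm)
    fun U _ => ((ground_iff_all M).1 (hk' y hy)).2.1 U⟩
  obtain ⟨h1, h2, h3⟩ := hΦ
  have hb : ∀ j, ∃ y : Sp M K, ∀ᵐ x ∂leb d, y.1 x = Φ j x := fun j =>
    ⟨⟨(h1 j).2.1.toLp _, inv_congr (h1 j).2.1.coeFn_toLp fun U _ =>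
      Eventually.of_forall ((h1 j).2.2.1 U)⟩, (h1 j).2.1.coeFn_toLp⟩
  choose b hb using hb
  have hs : ∀ c : Fin n → ℂ, e (∑ j, c j • e.symm (b j)) = ∑ j, c j • b j := fun c => by
    simp only [map_sum, map_smul, e.apply_symm_apply]
  refine ker_dim H (fun j => e.symm (b j)) (fun j => (hk _).2 ?_) (fun c hc => h2 c ?_)
    fun y hy => ?_
  · rw [e.apply_symm_apply]
    exact ground_congr M (ground_of_class M (h1 j)) (hb j)
  · have h5 : ∑ j, c j • b j = 0 := by rw [← hs, hc, map_zero]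
    have h4 : (fun x => ∑ j, c j • Φ j x) =ᵐ[leb d] fun _ => 0 := by
      filter_upwards [coe_comb b hb c, Lp.coeFn_zero F 2 (leb d)] with x a1 a2
      rw [← a1, h5]
      exact a2
    exact congrFun ((Continuous.ae_eq_iff_eq (leb d) (continuous_finsetSum _ fun j _ =>
      (h1 j).1.continuous.const_smul (c j)) continuous_const).1 h4)
  · obtain ⟨c, hc⟩ := (h3 _).1 (hk' y hy)
    refine ⟨c, e.injective ((hs c).trans (Subtype.ext (Lp.ext ?_)))⟩
    filter_upwards [coe_comb b hb c, hc] with x a1 a2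
    rw [a1, a2]

end Vale.Agent.N353
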