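import Vale.Agent.N353.St
import Vale.Agent.P353B91.Den

/-! # N353: the `K`-invariant core is dense in the space of `K`-invariant vectors -/

open MeasureTheory Filter Topology
open scoped ContDiff

namespace Vale.Agent.N353

open Vale.Agent.P353 Vale.Agent.P353.BFSS Vale.Agent.P353.AN.G Vale.Agent.P353.Z Vale.Agent.P353.Z.U

variable {N d : ℕ} {F : Type*} [NormedAddCommGroup F] [InnerProductSpace ℂ F] (M : BFSS.Model N d F)
  (K : Subgroup (SU N))

theorem ex_haar : ∃ μ : Measure (SU N), IsProbabilityMeasure μ ∧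
    (∀ᵐ U ∂μ, U ∈ closure (K : Set (SU N))) ∧
    ∀ V ∈ K, ∀ f : SU N → F, Continuous f → ∫ U, f (V * U) ∂μ = ∫ U, f U ∂μ := by
  let L := K.topologicalClosure
  have hc : IsClosed (L : Set (SU N)) := K.isClosed_topologicalClosure
  have : CompactSpace L := isCompact_iff_compactSpace.1 hc.isCompact
  let ν : Measure L := Measure.haarMeasure ⊤
  have h1 : IsProbabilityMeasure ν := ⟨by
    simpa [ν] using Measure.haarMeasure_self (K₀ := (⊤ : TopologicalSpace.PositiveCompacts L))⟩
  have hm : MeasurableEmbedding (Subtype.val : L → SU N) :=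
    MeasurableEmbedding.subtype_coe hc.measurableSet
  refine ⟨ν.map Subtype.val, Measure.isProbabilityMeasure_map hm.measurable.aemeasurable,
    hm.ae_map_iff.2 (Eventually.of_forall fun U => U.2), fun V hV f _ => ?_⟩
  rw [hm.integral_map, hm.integral_map]
  exact integral_mul_left_eq_self (μ := ν) (fun U : L => f U.1) ⟨V, K.le_topologicalClosure hV⟩

/-- the average with respect to `μ` -/
noncomputable def av (μ : Measure (SU N)) (v : Conf d → F) (x : Conf d) : F :=
  ∫ U, M.S U (v (M.act U⁻¹ x)) ∂μ

theorem av_core {μ : Measure (SU N)} [IsProbabilityMeasure μ]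
    (h : ∀ V ∈ K, ∀ f : SU N → F, Continuous f → ∫ U, f (V * U) ∂μ = ∫ U, f U ∂μ)
    {v : Conf d → F} (hv : ContDiff ℝ ∞ v) (hc : HasCompactSupport v) : Core M K (av M μ v) := by
  have hF := H121.fdim M
  have hA := act_stmt M
  have hfd : FiniteDimensional ℝ F := FiniteDimensional.complexToReal F
  have hcF : CompleteSpace F := FiniteDimensional.complete ℂ F
  refine ⟨(smInt (SU N) (Cfg d) μ (AvgD.rho M hA) (AvgD.rho_cont M hA) F F (AvgD.sr M)
    (AvgD.sr_cont M) v hv).1, ?_, fun V hV x => ?_⟩
  · obtain ⟨R, hR⟩ := hc.isCompact.isBounded.subset_closedBall (0 : Conf d)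
    refine HasCompactSupport.intro (isCompact_closedBall (0 : Conf d) R) fun x hx => ?_
    have h2 : ∀ U : SU N, M.S U (v (M.act U⁻¹ x)) = 0 := by
      intro U
      have h3 : M.act U⁻¹ x ∉ tsupport v := by
        intro h4
        have h5 := hR h4
        rw [mem_closedBall_zero_iff] at h5 hx
        rw [H121.act_norm] at h5
        exact hx h5
      rw [image_eq_zero_of_notMem_tsupport h3, map_zero]
    simp only [av, h2, integral_zero]
  · unfold av
    rw [← h V hV _ (AvgG.tr_cont_left M hA hv.continuous (M.act V x)),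
      ← (M.S V).integral_comp_comm ((AvgG.tr_cont_left M hA hv.continuous
        x).integrable_of_hasCompactSupport (HasCompactSupport.of_compactSpace _))]
    congr 1
    funext U
    rw [M.S_mul, ← hA.1, mul_inv_rev, mul_assoc, inv_mul_cancel, mul_one]

theorem av_pair {μ : Measure (SU N)} [IsProbabilityMeasure μ]
    (h : ∀ᵐ U ∂μ, U ∈ closure (K : Set (SU N))) (η : Lp F 2 (leb d)) (hη : Invariant M K η)
    {v : Conf d → F} (hv : Continuous v) (hc : HasCompactSupport v) :
    ∫ x, inner ℂ (η x) (av M μ v x) ∂leb d = ∫ x, inner ℂ (η x) (v x) ∂leb d := by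
  have hF := H121.fdim M
  have hcF : CompleteSpace F := FiniteDimensional.complete ℂ F
  have hA := act_stmt M
  obtain ⟨C, hC⟩ := hv.bounded_above_of_compact_support hc
  obtain ⟨R, hR⟩ := hc.isCompact.isBounded.subset_closedBall 0
  have hl : IntegrableOn (fun x => ‖η x‖ * C) (Metric.closedBall (0 : Conf d) R) (leb d) :=
    (((Lp.memLp η).locallyIntegrable (by norm_num)).integrableOn_isCompact
      (isCompact_closedBall 0 R)).norm.mul_const C
  have hb : ∀ (U : SU N) (x : Conf d), ‖(inner ℂ (η x) (M.S U (v (M.act U⁻¹ x))) : ℂ)‖ ≤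
      (Metric.closedBall (0 : Conf d) R).indicator (fun x => ‖η x‖ * C) x := by
    intro U x
    by_cases hp : x ∈ Metric.closedBall (0 : Conf d) R
    · rw [Set.indicator_of_mem hp]
      refine (norm_inner_le_norm _ _).trans ?_
      rw [M.S_isometry]
      exact mul_le_mul_of_nonneg_left (hC _) (norm_nonneg _)
    · have h1 : v (M.act U⁻¹ x) = 0 := by
        refine image_eq_zero_of_notMem_tsupport fun h => hp ?_
        have h2 := hR h
        rw [mem_closedBall_zero_iff] at h2 ⊢
        rwa [H121.act_norm] at h2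
      rw [Set.indicator_of_notMem hp, h1, map_zero, inner_zero_right, norm_zero]
  have hi : Integrable (fun p : SU N × Conf d =>
      (inner ℂ (η p.2) (M.S p.1 (v (M.act p.1⁻¹ p.2))) : ℂ)) (μ.prod (leb d)) :=
    Integrable.mono' ((hl.integrable_indicator measurableSet_closedBall).comp_snd μ)
      (((Lp.aestronglyMeasurable η).comp_snd).inner
        (AvgG.tr_cont M hA hv).aestronglyMeasurable) (Eventually.of_forall fun p => hb p.1 p.2)
  have e1 : ∀ x, (inner ℂ (η x) (av M μ v x) : ℂ) =
      ∫ U, (inner ℂ (η x) (M.S U (v (M.act U⁻¹ x))) : ℂ) ∂μ := fun x =>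
    (integral_inner ((AvgG.tr_cont_left M hA hv x).integrable_of_hasCompactSupport
      (HasCompactSupport.of_compactSpace _)) _).symm
  have hcont : Continuous fun U : SU N =>
      ∫ x, (inner ℂ (η x) (M.S U (v (M.act U⁻¹ x))) : ℂ) ∂leb d := by
    refine continuous_of_dominated (fun U => (Lp.aestronglyMeasurable η).inner
      ((M.S U).continuous.comp (hv.comp (H121.act_cont M U⁻¹))).aestronglyMeasurable)
      (fun U => Eventually.of_forall (hb U)) (hl.integrable_indicator measurableSet_closedBall)
      (Eventually.of_forall fun x => continuous_const.inner (AvgG.tr_cont_left M hA hv x))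
  have e2 : ∀ U ∈ closure (K : Set (SU N)),
      ∫ x, (inner ℂ (η x) (M.S U (v (M.act U⁻¹ x))) : ℂ) ∂leb d =
      ∫ x, inner ℂ (η x) (v x) ∂leb d := by
    refine (isClosed_eq hcont continuous_const).closure_subset_iff.2 fun U hU => ?_
    change ∫ x, (inner ℂ (η x) (M.S U (v (M.act U⁻¹ x))) : ℂ) ∂leb d = _
    rw [← (H121.act_mp M U).integral_comp (H121.act_emb M U)]
    refine integral_congr_ae ?_
    filter_upwards [hη U hU] with x hx
    rw [hx, ← hA.1, inv_mul_cancel, hA.2.1, AvgG.inner_S]
  simp only [e1]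
  rw [← integral_integral_swap (f := fun (U : SU N) (x : Conf d) =>
    (inner ℂ (η x) (M.S U (v (M.act U⁻¹ x))) : ℂ)) hi,
    integral_congr_ae (h.mono fun U hU => e2 U hU)]
  simp

/-- an invariant vector orthogonal to the core vanishes -/
theorem core_dense (η : Lp F 2 (leb d)) (hη : Invariant M K η)
    (h : ∀ u, Core M K u → ∫ x, inner ℂ (η x) (u x) ∂leb d = 0) : η = 0 := by
  obtain ⟨μ, h1, h2, h3⟩ := ex_haar (F := F) K
  refine P353B91.test_zero η fun v hv hc => ?_
  rw [← av_pair M K h2 η hη hv.continuous hc]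
  exact h _ (av_core M K h3 hv hc)

end Vale.Agent.N353
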