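import Vale.Agent.P353.BdZ.B14
import Vale.Agent.P353.BdZ.B16

/-! # N353: one parameter groups and the gauge generators -/

open MeasureTheory Filter Topology
open scoped ContDiff

namespace Vale.Agent.N353

open Vale.Agent.P353 Vale.Agent.P353.Z Vale.Agent.P353.Z.U

variable {N d : ℕ} {F : Type*} [NormedAddCommGroup F] [InnerProductSpace ℂ F]
  (M : BFSS.Model N d F)

/-- the matrix `X_i = x_i^A T_A` -/
noncomputable def Xm (x : Cfg d) (i : Fin 9) : Matrix (Fin N) (Fin N) ℂ :=
  ∑ A, (x (i, A) : ℂ) • M.T A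

theorem Xm_herm (x : Cfg d) (i : Fin 9) : (Xm M x i).conjTranspose = Xm M x i := by
  rw [Xm, Matrix.conjTranspose_sum]
  refine Finset.sum_congr rfl fun A _ => ?_
  rw [Matrix.conjTranspose_smul, M.T_hermitian, RCLike.star_def, Complex.conj_ofReal]

theorem Xm_trace (x : Cfg d) (i : Fin 9) : (Xm M x i).trace = 0 := by
  rw [Xm, Matrix.trace_sum]
  refine Finset.sum_eq_zero fun A _ => ?_
  rw [Matrix.trace_smul, M.T_traceless, smul_zero]

theorem Xm_coef (x : Cfg d) (i : Fin 9) (B : Fin d) :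
    (Xm M x i * M.T B).trace = x (i, B) := by
  rw [Xm, Finset.sum_mul, Matrix.trace_sum]
  simp only [Matrix.smul_mul, Matrix.trace_smul, M.T_orthonormal, smul_eq_mul, mul_ite, mul_one,
    mul_zero, Finset.sum_ite_eq', Finset.mem_univ, if_true]

theorem act_coef (U : BFSS.SU N) (x : Cfg d) (i : Fin 9) (B : Fin d) :
    ((M.act U x (i, B) : ℝ) : ℂ) = (mgc U.val (Xm M x i) * M.T B).trace := by
  have h1 : M.act U x (i, B) = ∑ A, P353.adCoeff M.toOld.T U B A * x (i, A) := rfl
  rw [h1, Xm, mgc_sum, Finset.sum_mul, Matrix.trace_sum, Complex.ofReal_sum]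
  refine Finset.sum_congr rfl fun A _ => ?_
  rw [mgc_smul, Matrix.smul_mul, Matrix.trace_smul, Complex.ofReal_mul, mg_ad, smul_eq_mul,
    mul_comm]
  rfl

theorem Xm_act (hd : 0 < d) (U : BFSS.SU N) (x : Cfg d) (i : Fin 9) :
    Xm M (M.act U x) i = mgc U.val (Xm M x i) := by
  have h1 := mg_complete M.toOld hd (mgc U.val (Xm M x i)) (by rw [mgc_trace, Xm_trace])
  rw [← h1, Xm]
  refine Finset.sum_congr rfl fun B _ => ?_
  rw [act_coef]
  rfl

omit M in
theorem mgc_mul (U V : BFSS.SU N) (Y : Matrix (Fin N) (Fin N) ℂ) :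
    mgc (U * V).val Y = mgc U.val (mgc V.val Y) := by
  show mgc (U.val * V.val) Y = _
  simp only [mgc, Matrix.conjTranspose_mul, mul_assoc]

omit M in
theorem mgc_one (Y : Matrix (Fin N) (Fin N) ℂ) : mgc (1 : BFSS.SU N).val Y = Y := by
  show mgc 1 Y = _
  rw [mgc, Matrix.conjTranspose_one, one_mul, mul_one]

theorem act_mul (hd : 0 < d) (U V : BFSS.SU N) (x : Cfg d) :
    M.act (U * V) x = M.act U (M.act V x) := by
  ext ⟨i, B⟩
  apply Complex.ofReal_injective
  rw [act_coef, act_coef, Xm_act M hd, mgc_mul]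

theorem act_one (x : Cfg d) : M.act 1 x = x := by
  ext ⟨i, B⟩
  apply Complex.ofReal_injective
  rw [act_coef, mgc_one, Xm_coef]

/-- conjugation as a linear map -/
noncomputable def cj (U : BFSS.SU N) :
    Matrix (Fin N) (Fin N) ℂ →ₗ[ℂ] Matrix (Fin N) (Fin N) ℂ where
  toFun := mgc U.val
  map_add' X Y := by simp only [mgc, Matrix.mul_add, Matrix.add_mul]
  map_smul' c X := mgc_smul _ _ _

/-- the one parameter group `exp (i t U y U*)` -/
noncomputable def op (U : BFSS.SU N) (y : mgH N) (t : ℝ) : BFSS.SU N :=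
  U * mgtor (t • y) * U⁻¹

omit M in
theorem op_add (U : BFSS.SU N) (y : mgH N) (s t : ℝ) :
    op U y (s + t) = op U y s * op U y t := by
  simp only [op, add_smul, mgtor_add, mul_assoc, inv_mul_cancel_left]

omit M in
theorem op_zero (U : BFSS.SU N) (y : mgH N) : op U y 0 = 1 := by
  rw [op, zero_smul, mgtor_zero, mul_one, mul_inv_cancel]

omit M in
theorem op_conj (V U : BFSS.SU N) (y : mgH N) (t : ℝ) :
    op (V * U) y t = V * op U y t * V⁻¹ := by
  simp only [op, mul_inv_rev, mul_assoc]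

omit M in
theorem op_fix (U : BFSS.SU N) (y : mgH N) (t : ℝ) :
    mgc (op U y t).val (mgc U.val (mgd y)) = mgc U.val (mgd y) := by
  rw [← mgc_mul, op, inv_mul_cancel_right, mgc_mul]
  congr 1
  exact mgc_tor_diag _ _

omit M in
theorem op_deriv {V : Type*} [NormedAddCommGroup V] [NormedSpace ℂ V]
    (L : Matrix (Fin N) (Fin N) ℂ →ₗ[ℂ] V) (U : BFSS.SU N) (y : mgH N)
    (Y : Matrix (Fin N) (Fin N) ℂ) :
    HasDerivAt (fun t => L (mgc (op U y t).val Y))
      (L (Complex.I • (mgc U.val (mgd y) * Y - Y * mgc U.val (mgd y)))) 0 := by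
  have h1 := mg_deriv_lin (L.comp (cj U)) (mgc_tor_deriv y (mgc (U⁻¹).val Y) 0)
  have h0 : mgc (mgtorM ((0 : ℝ) • y)) (mgc (U⁻¹).val Y) = mgc (U⁻¹).val Y := by
    have h2 : mgtorM ((0 : ℝ) • y) = (1 : BFSS.SU N).val := by
      rw [zero_smul]
      exact congrArg Subtype.val (mgtor_zero (N := N))
    rw [h2, mgc_one]
  have e : (fun t => L (mgc (op U y t).val Y)) =
      fun t : ℝ => (L.comp (cj U)) (mgc (mgtorM (t • y)) (mgc (U⁻¹).val Y)) := by
    funext t
    rw [op, mgc_mul, mgc_mul]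
    rfl
  rw [e]
  refine h1.congr_deriv ?_
  rw [h0, LinearMap.comp_apply, map_smul, map_sub]
  congr 3
  · show mgc U.val (mgd y * mgc U.val.conjTranspose Y) = _
    simp only [mgc, Matrix.conjTranspose_conjTranspose, mul_assoc, (mg_unit U).2, mul_one]
  · show mgc U.val (mgc U.val.conjTranspose Y * mgd y) = _
    simp only [mgc, Matrix.conjTranspose_conjTranspose]
    calc U.val * (U.val.conjTranspose * Y * U.val * mgd y) * U.val.conjTranspose =
        (U.val * U.val.conjTranspose) * Y * (U.val * mgd y * U.val.conjTranspose) := by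
          simp only [mul_assoc]
      _ = _ := by rw [(mg_unit U).2, one_mul]

/-- the gauge generators at the point `x`, as a linear function of a matrix -/
noncomputable def Lx (S : Setup d F) (u : Cfg d → F) (x : Cfg d) :
    Matrix (Fin N) (Fin N) ℂ →ₗ[ℂ] F where
  toFun H := ∑ C, (H * M.T C).trace • S.G C u x
  map_add' X Y := by
    simp only [Matrix.add_mul, Matrix.trace_add, add_smul, Finset.sum_add_distrib]
  map_smul' c X := by
    simp only [Matrix.smul_mul, Matrix.trace_smul, smul_eq_mul, mul_smul, Finset.smul_sum,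
      RingHom.id_apply]

theorem Lx_apply (S : Setup d F) (u : Cfg d → F) (x : Cfg d) (H : Matrix (Fin N) (Fin N) ℂ) :
    Lx M S u x H = ∑ C, (H * M.T C).trace • S.G C u x := rfl

theorem cS_eq {S : Setup d F} (hR : Rep M S) (C : Fin d) :
    S.cS C = (-Complex.I) • mgz M.toOld (M.T C) := by
  have hf : S.f = M.toOld.f := hR.hf
  have hth : S.th = M.toOld.θ := hR.hth
  have hb : ∀ D E, S.bil 1 D E = mgb M.toOld D E := by
    intro D E
    simp only [CS.bil, CS.vec_one, hth]
    rfl
  have ht : ∀ D E, (M.T C * (M.toOld.T D * M.toOld.T E -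
      M.toOld.T E * M.toOld.T D)).trace = Complex.I * (M.f C D E : ℂ) := by
    intro D E
    rw [Matrix.trace_mul_comm]
    have h3 := mf_trace M D E C
    rw [← mf_cyc M C D E] at h3
    exact h3
  rw [mgz_apply, Setup.cS]
  simp only [hb, ht, hf]
  rw [smul_smul, Finset.smul_sum, Finset.smul_sum]
  refine Finset.sum_congr rfl fun D _ => ?_
  rw [Finset.smul_sum, Finset.smul_sum]
  refine Finset.sum_congr rfl fun E _ => ?_
  rw [smul_smul, smul_smul]
  congr 1
  show -Complex.I / 2 * (M.f C D E : ℂ) = -Complex.I * (-Complex.I / 2) *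
    (Complex.I * (M.f C D E : ℂ))
  linear_combination (-Complex.I / 2 * (M.f C D E : ℂ)) * Complex.I_sq

theorem comm_coef (hd : 0 < d) {H : Matrix (Fin N) (Fin N) ℂ} (hH : H.trace = 0) (x : Cfg d)
    (i : Fin 9) (B : Fin d) :
    ((Complex.I • (H * Xm M x i - Xm M x i * H)) * M.T B).trace =
      -∑ C, ∑ A, (H * M.T C).trace * ((M.f C A B : ℂ) * (x (i, A) : ℂ)) := by
  have h1 : ∑ C, (H * M.T C).trace • M.T C = H := mg_complete M.toOld hd H hH
  have h2 : H * Xm M x i - Xm M x i * H = ∑ C, ∑ A, ((H * M.T C).trace * (x (i, A) : ℂ)) •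
      (M.T C * M.T A - M.T A * M.T C) := by
    have h3 : ∀ h : Fin d → ℂ, (∑ C, h C • M.T C) * Xm M x i - Xm M x i * ∑ C, h C • M.T C =
        ∑ C, ∑ A, (h C * (x (i, A) : ℂ)) • (M.T C * M.T A - M.T A * M.T C) := by
      intro h
      rw [Finset.sum_mul, Finset.mul_sum, ← Finset.sum_sub_distrib]
      refine Finset.sum_congr rfl fun C _ => ?_
      rw [Xm, Finset.sum_mul, Finset.mul_sum, ← Finset.sum_sub_distrib]
      refine Finset.sum_congr rfl fun A _ => ?_
      rw [smul_mul_smul_comm, smul_mul_smul_comm, smul_sub, mul_comm (x (i, A) : ℂ)]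
    rw [← h3, h1]
  rw [h2, Matrix.smul_mul, Matrix.trace_smul, Finset.sum_mul, Matrix.trace_sum, Finset.smul_sum,
    ← Finset.sum_neg_distrib]
  refine Finset.sum_congr rfl fun C _ => ?_
  rw [Finset.sum_mul, Matrix.trace_sum, Finset.smul_sum, ← Finset.sum_neg_distrib]
  refine Finset.sum_congr rfl fun A _ => ?_
  rw [Matrix.smul_mul, Matrix.trace_smul, mf_trace, smul_eq_mul, smul_eq_mul]
  linear_combination ((H * M.T C).trace * (x (i, A) : ℂ) * (M.f C A B : ℂ)) * Complex.I_sq

theorem vec_eq (h : Fin 9 × Fin d → ℝ) : (WithLp.toLp 2 h : Cfg d) =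
    ∑ p, h p • (EuclideanSpace.single p (1 : ℝ) : Cfg d) := by
  ext q
  rw [WithLp.ofLp_sum, Finset.sum_apply]
  simp [PiLp.single_apply]

/-- the derivative along a one parameter group -/
theorem key_deriv [CompleteSpace F] (hd : 0 < d) {S : Setup d F} (hR : Rep M S) {u : Cfg d → F}
    (hu : ContDiff ℝ ∞ u) (U : BFSS.SU N) (y : mgH N) (x : Cfg d) :
    HasDerivAt (fun t => mgE (mgz M.toOld (mgc U.val (mgd y))) (-t) (u (M.act (op U y t) x)))
      ((-Complex.I) • Lx M S u x (mgc U.val (mgd y))) 0 := by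
  set H := mgc U.val (mgd y) with hH
  have htr : H.trace = 0 := by
    rw [hH, mgc_trace, mgd, Matrix.trace_diagonal, ← Complex.ofReal_sum, mgH_sum,
      Complex.ofReal_zero]
  set z : Fin 9 × Fin d → ℂ := fun p =>
    -∑ C, ∑ A, (H * M.T C).trace * ((M.f C A p.2 : ℂ) * (x (p.1, A) : ℂ)) with hz
  have h1 : ∀ p : Fin 9 × Fin d,
      HasDerivAt (fun t => ((M.act (op U y t) x p : ℝ) : ℂ)) (z p) 0 := by
    rintro ⟨i, B⟩
    let L : Matrix (Fin N) (Fin N) ℂ →ₗ[ℂ] ℂ :=
      (Matrix.traceLinearMap (Fin N) ℂ ℂ).comp (LinearMap.mulRight ℂ (M.T B))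
    have h2 := op_deriv L U y (Xm M x i)
    have e : (fun t => ((M.act (op U y t) x (i, B) : ℝ) : ℂ)) =
        fun t => L (mgc (op U y t).val (Xm M x i)) := by
      funext t
      rw [act_coef]
      rfl
    rw [e]
    refine h2.congr_deriv ?_
    exact comm_coef M hd htr x i B
  have h2 : ∀ p : Fin 9 × Fin d, HasDerivAt (fun t => M.act (op U y t) x p) (z p).re 0 := by
    intro p
    have h3 := Complex.reCLM.hasFDerivAt.comp_hasDerivAt (0 : ℝ) (h1 p)
    simpa [Function.comp_def] using h3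
  have h3 : ∀ p, (((z p).re : ℝ) : ℂ) = z p := fun p => (h2 p).ofReal_comp.unique (h1 p)
  have h4 : HasDerivAt (fun t => M.act (op U y t) x)
      (∑ p : Fin 9 × Fin d, (z p).re • (EuclideanSpace.single p (1 : ℝ) : Cfg d)) 0 := by
    have e : (fun t => M.act (op U y t) x) = fun t => ∑ p : Fin 9 × Fin d,
        M.act (op U y t) x p • (EuclideanSpace.single p (1 : ℝ) : Cfg d) := by
      funext t
      exact vec_eq _
    rw [e]
    exact HasDerivAt.fun_sum fun p _ => (h2 p).smul_const _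
  have hx0 : M.act (op U y 0) x = x := by rw [op_zero, act_one]
  have h5 : HasDerivAt (fun t => u (M.act (op U y t) x)) (fderiv ℝ u x
      (∑ p : Fin 9 × Fin d, (z p).re • (EuclideanSpace.single p (1 : ℝ) : Cfg d))) 0 := by
    have h6 : HasFDerivAt u (fderiv ℝ u x) (M.act (op U y 0) x) := by
      rw [hx0]
      exact (hu.differentiable (by simp) x).hasFDerivAt
    exact h6.comp_hasDerivAt (0 : ℝ) h4
  have h6 := (ContinuousLinearMap.restrictScalarsL ℂ F F ℝ ℝ).hasFDerivAt.comp_hasDerivAt (0 : ℝ)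
    (mgE_deriv_neg (mgz M.toOld H) 0)
  have h7 := h6.clm_apply h5
  refine HasDerivAt.congr_deriv h7 ?_
  simp only [Function.comp_apply, neg_zero, mgE_zero, mul_one, hx0]
  show -(mgz M.toOld H (u x)) + fderiv ℝ u x _ = _
  have h8 : mgz M.toOld H (u x) = ∑ C, (H * M.T C).trace • mgz M.toOld (M.T C) (u x) := by
    have h9 : ∑ C, (H * M.T C).trace • M.T C = H := mg_complete M.toOld hd H htr
    conv_lhs => rw [← h9]
    simp only [map_sum, map_smul, _root_.sum_apply, _root_.smul_apply]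
  have h9 : fderiv ℝ u x (∑ p : Fin 9 × Fin d,
      (z p).re • (EuclideanSpace.single p (1 : ℝ) : Cfg d)) =
      -∑ C, (H * M.T C).trace • ∑ i, ∑ A, ∑ B,
        ((M.f C A B : ℂ) * (x (i, A) : ℂ)) • P353.pd i B u x := by
    rw [map_sum]
    have e1 : ∀ p : Fin 9 × Fin d, fderiv ℝ u x
        ((z p).re • (EuclideanSpace.single p (1 : ℝ) : Cfg d)) = z p • P353.pd p.1 p.2 u x := by
      intro p
      rw [map_smul, ← Complex.coe_smul, h3]
      rfl
    rw [Finset.sum_congr rfl fun p _ => e1 p]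
    simp only [hz, neg_smul, Finset.sum_neg_distrib, Finset.sum_smul, Finset.smul_sum,
      smul_smul, Fintype.sum_prod_type]
    congr 1
    calc _ = ∑ i, ∑ C, ∑ B, ∑ A, ((H * M.T C).trace * ((M.f C A B : ℂ) * (x (i, A) : ℂ))) •
          P353.pd i B u x := Finset.sum_congr rfl fun i _ => Finset.sum_comm
      _ = ∑ C, ∑ i, ∑ B, ∑ A, ((H * M.T C).trace * ((M.f C A B : ℂ) * (x (i, A) : ℂ))) •
          P353.pd i B u x := Finset.sum_comm
      _ = _ := Finset.sum_congr rfl fun C _ => Finset.sum_congr rfl fun i _ => Finset.sum_comm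
  rw [h8, h9, Lx_apply, Finset.smul_sum, ← Finset.sum_neg_distrib, ← Finset.sum_neg_distrib,
    ← Finset.sum_add_distrib]
  refine Finset.sum_congr rfl fun C _ => ?_
  rw [Setup.G, cS_eq M hR, hR.hf, _root_.smul_apply]
  have hI : ∀ (a : ℂ) (v : F), (-Complex.I) • a • (-Complex.I) • v = -(a • v) := by
    intro a v
    rw [smul_smul, smul_smul, ← neg_smul]
    congr 1
    linear_combination a * Complex.I_sq
  rw [smul_add, smul_add, hI, hI, add_comm]

theorem S_op [CompleteSpace F] [FiniteDimensional ℂ F] (hd : 0 < d) (U : BFSS.SU N) (y : mgH N)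
    (t : ℝ) : M.S (op U y t) = mgE (mgz M.toOld (mgc U.val (mgd y))) t :=
  mgS_conj M.toOld hd U y t

/-- invariance along a one parameter group gives the infinitesimal equation -/
theorem Lx_of_inv [CompleteSpace F] [FiniteDimensional ℂ F] (hd : 0 < d) {S : Setup d F}
    (hR : Rep M S) {u : Cfg d → F} (hu : ContDiff ℝ ∞ u) (U : BFSS.SU N) (y : mgH N) (x : Cfg d)
    (h : ∀ t, u (M.act (op U y t) x) = M.S (op U y t) (u x)) :
    Lx M S u x (mgc U.val (mgd y)) = 0 := by
  have h1 := key_deriv M hd hR hu U y x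
  have e : (fun t => mgE (mgz M.toOld (mgc U.val (mgd y))) (-t) (u (M.act (op U y t) x))) =
      fun _ => u x := by
    funext t
    rw [h, S_op M hd, ← mul_apply_eq_comp, mgE_neg_mul, one_apply_eq_self]
  rw [e] at h1
  have h2 := h1.unique (hasDerivAt_const (0 : ℝ) (u x))
  exact (smul_eq_zero.1 h2).resolve_left (neg_ne_zero.2 Complex.I_ne_zero)

/-- the infinitesimal equation along the orbit gives invariance -/
theorem inv_of_Lx [CompleteSpace F] [FiniteDimensional ℂ F] (hd : 0 < d) {S : Setup d F}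
    (hR : Rep M S) {u : Cfg d → F} (hu : ContDiff ℝ ∞ u) (U : BFSS.SU N) (y : mgH N) (x : Cfg d)
    (h : ∀ t, Lx M S u (M.act (op U y t) x) (mgc U.val (mgd y)) = 0) (t : ℝ) :
    u (M.act (op U y t) x) = M.S (op U y t) (u x) := by
  set Z := mgz M.toOld (mgc U.val (mgd y)) with hZ
  have h1 : ∀ s, HasDerivAt (fun t => mgE Z (-t) (u (M.act (op U y t) x))) 0 s := by
    intro s
    have h2 := key_deriv M hd hR hu U y (M.act (op U y s) x)
    rw [h s, smul_zero] at h2
    have h3 := ((mgE Z (-s)).restrictScalars ℝ).hasFDerivAt.comp_hasDerivAt (0 : ℝ) h2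
    rw [map_zero] at h3
    have h4 : HasDerivAt (fun t : ℝ => t - s) 1 s := (hasDerivAt_id s).sub_const s
    have h5 := HasDerivAt.scomp_of_eq s h3 h4 (sub_self s).symm
    rw [smul_zero] at h5
    refine h5.congr_of_eventuallyEq (Eventually.of_forall fun t => ?_)
    show _ = mgE Z (-s) (mgE Z (-(t - s)) (u (M.act (op U y (t - s)) (M.act (op U y s) x))))
    rw [← act_mul M hd, ← op_add, sub_add_cancel, ← mul_apply_eq_comp, ← mgE_add,
      show -s + -(t - s) = -t by ring]
  have h2 := is_const_of_deriv_eq_zero (fun s => (h1 s).differentiableAt)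
    (fun s => (h1 s).deriv) t 0
  simp only [neg_zero, mgE_zero, op_zero, act_one, one_apply_eq_self] at h2
  rw [S_op M hd, ← hZ, ← h2, ← mul_apply_eq_comp, mgE_mul_neg, one_apply_eq_self]

end Vale.Agent.N353
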