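import Mathlib

/-! # N353: two matrices generate the traceless matrices under commutators -/

namespace Vale.Agent.N353

variable {N : ℕ}

/-- the matrix with all off-diagonal entries equal to one -/
def gJ (N : ℕ) : Matrix (Fin N) (Fin N) ℂ := Matrix.of fun a b => if a = b then 0 else 1

theorem sidon_aux {a b c d : ℕ} (hab : b < a) (h : (2 : ℝ) ^ a - 2 ^ b = 2 ^ c - 2 ^ d) :
    c ≤ a := by
  by_contra hc
  push Not at hc
  have h1 : (2 : ℝ) ^ b < 2 ^ a := pow_lt_pow_right₀ (by norm_num) hab
  have h2 : d < c := by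
    by_contra hd
    push Not at hd
    have h3 : (2 : ℝ) ^ c ≤ 2 ^ d := pow_le_pow_right₀ (by norm_num) hd
    linarith
  have h3 : (2 : ℝ) ^ (d + 1) ≤ 2 ^ c := pow_le_pow_right₀ (by norm_num) h2
  have h4 : (2 : ℝ) ^ (a + 1) ≤ 2 ^ c := pow_le_pow_right₀ (by norm_num) hc
  have h5 : (0 : ℝ) < 2 ^ b := by positivity
  rw [pow_succ] at h3 h4
  linarith

theorem sidon_lt {a b c d : ℕ} (hab : b < a) (h : (2 : ℝ) ^ a - 2 ^ b = 2 ^ c - 2 ^ d) :
    a = c ∧ b = d := by
  have h1 : (2 : ℝ) ^ b < 2 ^ a := pow_lt_pow_right₀ (by norm_num) hab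
  have h2 : d < c := by
    by_contra hd
    push Not at hd
    have h3 : (2 : ℝ) ^ c ≤ 2 ^ d := pow_le_pow_right₀ (by norm_num) hd
    linarith
  have h3 : a = c := le_antisymm (sidon_aux h2 h.symm) (sidon_aux hab h)
  refine ⟨h3, ?_⟩
  subst h3
  have h4 : (2 : ℝ) ^ b = 2 ^ d := by linarith
  exact pow_right_injective₀ (by norm_num) (by norm_num) h4

theorem sidon {a b c d : ℕ} (hab : a ≠ b) (h : (2 : ℝ) ^ a - 2 ^ b = 2 ^ c - 2 ^ d) :
    a = c ∧ b = d := by
  rcases lt_or_gt_of_ne hab with h1 | h1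
  · have h2 := sidon_lt (c := d) (d := c) h1 (by linarith)
    exact ⟨h2.2, h2.1⟩
  · exact sidon_lt h1 h

/-- the eigenvalues `2 ^ a - mean` -/
noncomputable def gl (N : ℕ) (a : Fin N) : ℝ := 2 ^ a.val - (∑ b : Fin N, (2 : ℝ) ^ b.val) / N

theorem gl_sum : ∑ a, gl N a = 0 := by
  rcases Nat.eq_zero_or_pos N with h | h
  · subst h
    simp
  · have h1 : (N : ℝ) ≠ 0 := by exact_mod_cast h.ne'
    simp only [gl, Finset.sum_sub_distrib, Finset.sum_const, Finset.card_univ, Fintype.card_fin,
      nsmul_eq_mul]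
    field_simp
    ring

theorem gl_sidon {a b c d : Fin N} (hab : a ≠ b) (h : gl N a - gl N b = gl N c - gl N d) :
    a = c ∧ b = d := by
  have h1 := sidon (a := a.val) (b := b.val) (c := c.val) (d := d.val)
    (fun h2 => hab (Fin.ext h2)) (by simp only [gl] at h; linarith)
  exact ⟨Fin.ext h1.1, Fin.ext h1.2⟩

/-- the diagonal matrix with entries `gl` -/
noncomputable def gD (N : ℕ) : Matrix (Fin N) (Fin N) ℂ := Matrix.diagonal fun a => (gl N a : ℂ)

theorem gD_herm : (gD N).conjTranspose = gD N := by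
  rw [gD, Matrix.diagonal_conjTranspose]
  congr 1
  funext a
  rw [Pi.star_apply, RCLike.star_def, Complex.conj_ofReal]

theorem gD_trace : (gD N).trace = 0 := by
  rw [gD, Matrix.trace_diagonal, ← Complex.ofReal_sum, gl_sum, Complex.ofReal_zero]

theorem gJ_herm : (gJ N).conjTranspose = gJ N := by
  ext a b
  simp only [gJ, Matrix.conjTranspose_apply, Matrix.of_apply]
  by_cases h : a = b
  · simp [h]
  · simp [h, Ne.symm h]

theorem gJ_trace : (gJ N).trace = 0 := by
  simp [gJ, Matrix.trace]

section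

variable (W : Submodule ℂ (Matrix (Fin N) (Fin N) ℂ))
  (hD : ∀ Y ∈ W, gD N * Y - Y * gD N ∈ W)

include hD in
theorem gen_prod (s : Finset ℝ) {Y : Matrix (Fin N) (Fin N) ℂ} (hY : Y ∈ W) :
    (Matrix.of fun a b => ((∏ μ ∈ s, (gl N a - gl N b - μ) : ℝ) : ℂ) * Y a b) ∈ W := by
  classical
  induction s using Finset.induction_on with
  | empty =>
    have h : (Matrix.of fun a b => ((∏ μ ∈ (∅ : Finset ℝ), (gl N a - gl N b - μ) : ℝ) : ℂ) * Y a b)
        = Y := by
      ext a b
      simp
    rw [h]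
    exact hY
  | insert μ s hμ ih =>
    set Z : Matrix (Fin N) (Fin N) ℂ :=
      Matrix.of fun a b => ((∏ μ ∈ s, (gl N a - gl N b - μ) : ℝ) : ℂ) * Y a b with hZ
    have h1 := W.sub_mem (hD Z ih) (W.smul_mem (μ : ℂ) ih)
    have h : (Matrix.of fun a b =>
        ((∏ ν ∈ insert μ s, (gl N a - gl N b - ν) : ℝ) : ℂ) * Y a b) =
        gD N * Z - Z * gD N - (μ : ℂ) • Z := by
      ext a b
      rw [Matrix.of_apply, Finset.prod_insert hμ, Matrix.sub_apply, Matrix.sub_apply, gD,
        Matrix.diagonal_mul, Matrix.mul_diagonal, Matrix.smul_apply, hZ, Matrix.of_apply,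
        smul_eq_mul]
      push_cast
      ring
    rw [h]
    exact h1

include hD in
theorem gen_single (hJ : gJ N ∈ W) {a b : Fin N} (hab : a ≠ b) (z : ℂ) :
    Matrix.single a b z ∈ W := by
  classical
  set s : Finset ℝ := (Finset.univ.image fun p : Fin N × Fin N => gl N p.1 - gl N p.2).erase
    (gl N a - gl N b) with hs
  have h1 := gen_prod W hD s hJ
  set c : ℝ := ∏ μ ∈ s, (gl N a - gl N b - μ) with hc
  have hc0 : (c : ℂ) ≠ 0 := by
    rw [Complex.ofReal_ne_zero, hc]
    refine Finset.prod_ne_zero_iff.2 fun μ hμ => ?_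
    exact sub_ne_zero.2 (Finset.ne_of_mem_erase hμ).symm
  have h2 : Matrix.single a b z = (z / c) • (Matrix.of fun a' b' =>
      ((∏ μ ∈ s, (gl N a' - gl N b' - μ) : ℝ) : ℂ) * gJ N a' b') := by
    ext a' b'
    rw [Matrix.smul_apply, Matrix.of_apply, smul_eq_mul]
    by_cases h : a = a' ∧ b = b'
    · obtain ⟨rfl, rfl⟩ := h
      rw [Matrix.single_apply_same, ← hc, gJ, Matrix.of_apply, if_neg hab]
      field_simp
    · rw [Matrix.single_apply_of_ne _ _ _ _ _ h]
      have h3 : gl N a' - gl N b' ∈ s := by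
        rw [hs, Finset.mem_erase]
        refine ⟨fun h4 => h (gl_sidon hab h4.symm), Finset.mem_image.2 ⟨(a', b'), by simp, rfl⟩⟩
      rw [Finset.prod_eq_zero h3 (sub_self _)]
      simp
  rw [h2]
  exact W.smul_mem _ h1

include hD in
theorem gen_off (hJ : gJ N ∈ W) (Y : Matrix (Fin N) (Fin N) ℂ) :
    Y - Matrix.diagonal (fun a => Y a a) ∈ W := by
  classical
  have h : Y - Matrix.diagonal (fun a => Y a a) =
      ∑ a, ∑ b, if a = b then 0 else Matrix.single a b (Y a b) := by
    ext a b
    simp only [Matrix.sub_apply, Matrix.sum_apply]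
    rw [Finset.sum_eq_single a, Finset.sum_eq_single b]
    · by_cases h : a = b
      · subst h
        simp
      · simp [h]
    · intro c _ hc
      by_cases h : a = c
      · simp [h]
      · rw [if_neg h, Matrix.single_apply_of_ne]
        exact fun h2 => hc h2.2
    · simp
    · intro c _ hc
      refine Finset.sum_eq_zero fun e _ => ?_
      by_cases h : c = e
      · simp [h]
      · rw [if_neg h, Matrix.single_apply_of_ne]
        exact fun h2 => hc h2.1
    · simp
  rw [h]
  refine W.sum_mem fun a _ => W.sum_mem fun b _ => ?_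
  split_ifs with hab
  · exact W.zero_mem
  · exact gen_single W hD hJ hab _

include hD in
/-- a subspace that contains `gJ` and is stable under commutators with `gD` and `gJ` contains all
traceless matrices -/
theorem gen_all (hJ : gJ N ∈ W) (hJ' : ∀ Y ∈ W, gJ N * Y - Y * gJ N ∈ W)
    (H : Matrix (Fin N) (Fin N) ℂ) (hH : H.trace = 0) : H ∈ W := by
  classical
  rcases Nat.eq_zero_or_pos N with h0 | h0
  · subst h0
    have : H = 0 := by
      ext a
      exact a.elim0
    rw [this]
    exact W.zero_mem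
  set o : Fin N := ⟨0, h0⟩ with ho
  have h1 : ∀ b : Fin N, Matrix.diagonal
      (fun c => ((if c = b then 1 else 0) - (if c = o then 1 else 0) : ℂ)) ∈ W := by
    intro b
    by_cases hb : o = b
    · subst hb
      simp
    · set Y := gJ N * Matrix.single o b (1 : ℂ) - Matrix.single o b (1 : ℂ) * gJ N with hY
      have h2 : Y ∈ W := hJ' _ (gen_single W hD hJ hb 1)
      have h3 := W.sub_mem h2 (gen_off W hD hJ Y)
      rw [sub_sub_cancel] at h3
      convert h3 using 2
      funext c
      rw [hY, Matrix.sub_apply]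
      congr 1
      · by_cases h : c = b
        · subst h
          rw [Matrix.mul_single_apply_same, gJ, Matrix.of_apply, if_neg (Ne.symm hb)]
          simp
        · rw [Matrix.mul_single_apply_of_ne _ _ _ _ _ h, if_neg h]
      · by_cases h : c = o
        · subst h
          rw [Matrix.single_mul_apply_same, gJ, Matrix.of_apply, if_neg (Ne.symm hb)]
          simp
        · rw [Matrix.single_mul_apply_of_ne _ _ _ _ _ h, if_neg h]
  have h4 : Matrix.diagonal (fun a => H a a) = ∑ b, H b b • Matrix.diagonal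
      (fun c => ((if c = b then 1 else 0) - (if c = o then 1 else 0) : ℂ)) := by
    ext a e
    simp only [Matrix.sum_apply, Matrix.smul_apply, smul_eq_mul]
    by_cases h : a = e
    · subst h
      simp only [Matrix.diagonal_apply_eq, mul_sub, Finset.sum_sub_distrib, mul_ite, mul_one,
        mul_zero, Finset.sum_ite_eq, Finset.mem_univ, if_true]
      have h5 : ∑ b, H b b = 0 := hH
      by_cases h6 : a = o
      · simp [h6, h5]
      · simp [h6]
    · simp [Matrix.diagonal_apply_ne _ h]
  have h5 := W.add_mem (gen_off W hD hJ H) (h4 ▸ W.sum_mem fun b _ => W.smul_mem (H b b) (h1 b))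
  rwa [sub_add_cancel] at h5

end

end Vale.Agent.N353
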