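import Vale.Agent.N353.Lie
import Vale.Agent.P353.BdA.B44

/-! # N353: invariance from two of the equations `x_i^C G_C u = 0` -/

open scoped ContDiff

namespace Vale.Agent.N353

open Vale.Agent.P353 Vale.Agent.P353.Z Vale.Agent.P353.Z.U

variable {N d : ℕ} {F : Type*} [NormedAddCommGroup F] [InnerProductSpace ℂ F]

theorem inv_of_xG (M : BFSS.Model N d F) (S : Setup d F) (hR : Rep M S) {u : BFSS.Conf d → F}
    (hu : ContDiff ℝ ∞ u) {j k : Fin 9} (hjk : j ≠ k)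
    (hj : ∀ x : Cfg d, ∑ C, (x (j, C) : ℂ) • S.G C u x = 0)
    (hk : ∀ x : Cfg d, ∑ C, (x (k, C) : ℂ) • S.G C u x = 0) :
    (∀ C x, S.G C u x = 0) ∧ ∀ U x, u (M.act U x) = M.S U (u x) := by
  have hF : FiniteDimensional ℂ F := H121.fdim M
  exact ⟨G_of_xG M S hR hu hjk hj hk, fun U x =>
    AN.G.core_eqv M S hR u hu (G_of_xG M S hR hu hjk hj hk) U x⟩

end Vale.Agent.N353
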