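import Vale.Agent.N353.Gen
import Vale.Agent.N353.Flow
import Vale.Agent.P353.H121.Alg

/-! # N353: the Gauss law from two of the equations `x_i^C G_C u = 0` -/

open MeasureTheory Filter Topology
open scoped ContDiff

namespace Vale.Agent.N353

open Vale.Agent.P353 Vale.Agent.P353.Z Vale.Agent.P353.Z.U

variable {N d : ℕ} {F : Type*} [NormedAddCommGroup F] [InnerProductSpace ℂ F]
  (M : BFSS.Model N d F)

omit M in
/-- every traceless Hermitian matrix is conjugate to a diagonal one under `SU(N)` -/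
theorem ex_diag (hN : 0 < N) {H : Matrix (Fin N) (Fin N) ℂ} (hH : H.conjTranspose = H)
    (htr : H.trace = 0) : ∃ (U : BFSS.SU N) (y : mgH N), mgc U.val (mgd y) = H := by
  have hH' : H.IsHermitian := hH
  obtain ⟨U, hU⟩ := mg_phase hN (hH'.eigenvectorUnitary : Matrix (Fin N) (Fin N) ℂ)
    hH'.eigenvectorUnitary.2
  have h1 : mgc (hH'.eigenvectorUnitary : Matrix (Fin N) (Fin N) ℂ)
      (Matrix.diagonal fun j => ((hH'.eigenvalues j : ℝ) : ℂ)) = H := by
    have h2 := hH'.spectral_theorem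
    rw [Unitary.conjStarAlgAut_apply] at h2
    exact h2.symm
  have h3 : ∑ j, hH'.eigenvalues j = 0 := by
    have h4 := mgc_trace U (Matrix.diagonal fun j => ((hH'.eigenvalues j : ℝ) : ℂ))
    rw [hU, h1, htr, Matrix.trace_diagonal, ← Complex.ofReal_sum] at h4
    exact_mod_cast h4.symm
  exact ⟨U, ⟨hH'.eigenvalues, h3⟩, by rw [hU]; exact h1⟩

theorem Lx_Xm (S : Setup d F) (u : Cfg d → F) (x : Cfg d) (i : Fin 9) :
    Lx M S u x (Xm M x i) = ∑ C, (x (i, C) : ℂ) • S.G C u x := by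
  simp only [Lx_apply, Xm_coef]

/-- `V` acts on `u` at the point `x` as it should -/
def Good (u : Cfg d → F) (x : Cfg d) (V : BFSS.SU N) : Prop := u (M.act V x) = M.S V (u x)

/-- right multiplication by `W` and by its inverse preserves `Good` -/
def Stab (u : Cfg d → F) (x : Cfg d) (W : BFSS.SU N) : Prop :=
  ∀ V, Good M u x V → Good M u x (V * W) ∧ Good M u x (V * W⁻¹)

theorem Stab.mul {u : Cfg d → F} {x : Cfg d} {W W' : BFSS.SU N} (h : Stab M u x W)
    (h' : Stab M u x W') : Stab M u x (W * W') := fun V hV => by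
  rw [mul_inv_rev, ← mul_assoc, ← mul_assoc]
  exact ⟨(h' _ (h V hV).1).1, (h _ (h' V hV).2).2⟩

theorem good_one (u : Cfg d → F) (x : Cfg d) : Good M u x 1 := by
  rw [Good, act_one, M.S_one, one_apply_eq_self]

theorem stab_one (u : Cfg d → F) (x : Cfg d) : Stab M u x 1 := fun V hV => by
  rw [inv_one, mul_one]
  exact ⟨hV, hV⟩

section

variable [CompleteSpace F] [FiniteDimensional ℂ F] (hd : 0 < d) {S : Setup d F} (hR : Rep M S)
  {u : Cfg d → F} (hu : ContDiff ℝ ∞ u)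

include hd hR hu in
theorem good_op {i : Fin 9} (hi : ∀ x : Cfg d, ∑ C, (x (i, C) : ℂ) • S.G C u x = 0) {x : Cfg d}
    {U : BFSS.SU N} {y : mgH N} (hy : mgc U.val (mgd y) = Xm M x i) {V : BFSS.SU N}
    (hV : Good M u x V) (t : ℝ) : Good M u x (V * op U y t) := by
  have h1 := inv_of_Lx M hd hR hu (V * U) y (M.act V x) (fun s => by
    have h2 : mgc (V * U).val (mgd y) = Xm M (M.act (op (V * U) y s) (M.act V x)) i := by
      rw [Xm_act M hd, Xm_act M hd, ← hy, ← mgc_mul V U, op_fix]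
    rw [h2, Lx_Xm]
    exact hi _) t
  have h3 : V * op U y t = op (V * U) y t * V := by
    rw [op_conj, inv_mul_cancel_right]
  rw [Good, h3, act_mul M hd, h1, hV, M.S_mul]

include hd hR hu in
theorem stab_op {i : Fin 9} (hi : ∀ x : Cfg d, ∑ C, (x (i, C) : ℂ) • S.G C u x = 0) {x : Cfg d}
    {U : BFSS.SU N} {y : mgH N} (hy : mgc U.val (mgd y) = Xm M x i) (t : ℝ) :
    Stab M u x (op U y t) := fun V hV => by
  refine ⟨good_op M hd hR hu hi hy hV t, ?_⟩
  have h1 : (op U y t)⁻¹ = op U y (-t) := by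
    rw [inv_eq_iff_mul_eq_one, ← op_add, add_neg_cancel, op_zero]
  rw [h1]
  exact good_op M hd hR hu hi hy hV (-t)

/-- the matrices all of whose `Stab`-conjugates are killed at `x` -/
noncomputable def Ann (S : Setup d F) (u : Cfg d → F) (x : Cfg d) :
    Submodule ℂ (Matrix (Fin N) (Fin N) ℂ) where
  carrier := {Y | ∀ W, Stab M u x W → Lx M S u x (cj W Y) = 0}
  zero_mem' W _ := by rw [map_zero, map_zero]
  add_mem' ha hb W hW := by rw [map_add, map_add, ha W hW, hb W hW, add_zero]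
  smul_mem' c a ha W hW := by rw [map_smul, map_smul, ha W hW, smul_zero]

include hd hR hu in
theorem Xm_mem {i : Fin 9} (hi : ∀ x : Cfg d, ∑ C, (x (i, C) : ℂ) • S.G C u x = 0) (x : Cfg d) :
    Xm M x i ∈ Ann M S u x := by
  intro W hW
  obtain ⟨U, y, hy⟩ := ex_diag (mg_dim M.toOld hd).1 (Xm_herm M x i) (Xm_trace M x i)
  have h1 := Lx_of_inv M hd hR hu (W * U) y x fun t => by
    have h2 := (hW 1 (good_one M u x)).1
    have h3 := (hW _ (good_op M hd hR hu hi hy h2 t)).2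
    rw [one_mul, ← op_conj] at h3
    exact h3
  rw [mgc_mul, hy] at h1
  exact h1

include hd hR hu in
theorem comm_mem {i : Fin 9} (hi : ∀ x : Cfg d, ∑ C, (x (i, C) : ℂ) • S.G C u x = 0) (x : Cfg d)
    {Y : Matrix (Fin N) (Fin N) ℂ} (hY : Y ∈ Ann M S u x) :
    Xm M x i * Y - Y * Xm M x i ∈ Ann M S u x := by
  intro W hW
  obtain ⟨U, y, hy⟩ := ex_diag (mg_dim M.toOld hd).1 (Xm_herm M x i) (Xm_trace M x i)
  have h1 := op_deriv ((Lx M S u x).comp (cj W)) U y Y
  have e : (fun t => ((Lx M S u x).comp (cj W)) (mgc (op U y t).val Y)) = fun _ => 0 := by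
    funext t
    have h2 := hY _ (hW.mul M (stab_op M hd hR hu hi hy t))
    change Lx M S u x (mgc (W * op U y t).val Y) = 0 at h2
    rw [mgc_mul] at h2
    exact h2
  rw [e, hy, map_smul] at h1
  have h2 := h1.unique (hasDerivAt_const (0 : ℝ) (0 : F))
  exact (smul_eq_zero.1 h2).resolve_left Complex.I_ne_zero

end

theorem ex_conf (hd : 0 < d) {j k : Fin 9} (hjk : j ≠ k) :
    ∃ x : Cfg d, Xm M x j = gD N ∧ Xm M x k = gJ N := by
  have h1 : ∀ H : Matrix (Fin N) (Fin N) ℂ, H.conjTranspose = H → H.trace = 0 →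
      ∑ A, (((H * M.T A).trace.re : ℝ) : ℂ) • M.T A = H := by
    intro H hH htr
    have h2 : ∑ C, (H * M.T C).trace • M.T C = H := mg_complete M.toOld hd H htr
    conv_rhs => rw [← h2]
    refine Finset.sum_congr rfl fun A _ => ?_
    congr 1
    rw [← Complex.conj_eq_iff_re]
    have h3 := Matrix.trace_conjTranspose (H * M.T A)
    rw [Matrix.conjTranspose_mul, M.T_hermitian, hH, Matrix.trace_mul_comm] at h3
    exact h3.symm
  refine ⟨WithLp.toLp 2 fun p => if p.1 = j then (gD N * M.T p.2).trace.re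
    else (gJ N * M.T p.2).trace.re, ?_, ?_⟩
  · simp only [Xm, if_true]
    exact h1 _ gD_herm gD_trace
  · simp only [Xm, if_neg (Ne.symm hjk)]
    exact h1 _ gJ_herm gJ_trace

omit M in
theorem vec_zero {R : Matrix (Fin d) (Fin d) ℂ} (hdet : R.det ≠ 0) {v : Fin d → F}
    (h : ∀ C, ∑ B, R B C • v B = 0) (A : Fin d) : v A = 0 := by
  have h1 : R * R⁻¹ = 1 := Matrix.mul_nonsing_inv R (Ne.isUnit hdet)
  have h2 : ∑ C, R⁻¹ C A • ∑ B, R B C • v B = v A := by
    simp only [Finset.smul_sum, smul_smul]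
    rw [Finset.sum_comm]
    have h3 : ∀ B, ∑ C, (R⁻¹ C A * R B C) • v B = (if B = A then (1 : ℂ) else 0) • v B := by
      intro B
      rw [← Finset.sum_smul, ← Matrix.one_apply, ← h1, Matrix.mul_apply]
      congr 1
      exact Finset.sum_congr rfl fun C _ => mul_comm _ _
    simp [h3]
  rw [← h2]
  simp [h]

/-- matrix valued functions with analytic entries -/
def An (ξ : ℝ → Matrix (Fin N) (Fin N) ℂ) : Prop := ∀ a b s, AnalyticAt ℝ (fun t => ξ t a b) s

omit M in
theorem An.mul {ξ η : ℝ → Matrix (Fin N) (Fin N) ℂ} (h : An ξ) (h' : An η) :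
    An fun t => ξ t * η t := fun a b s => by
  simp only [Matrix.mul_apply]
  exact Finset.analyticAt_fun_sum _ fun c _ => (h a c s).mul (h' c b s)

omit M in
theorem An.sub {ξ η : ℝ → Matrix (Fin N) (Fin N) ℂ} (h : An ξ) (h' : An η) :
    An fun t => ξ t - η t := fun a b s => (h a b s).sub (h' a b s)

theorem an_Xm (x v : Cfg d) (i : Fin 9) : An fun t : ℝ => Xm M (x + t • v) i := fun a b s => by
  simp only [Xm, Matrix.sum_apply, Matrix.smul_apply, smul_eq_mul]
  refine Finset.analyticAt_fun_sum _ fun A _ => AnalyticAt.mul ?_ analyticAt_const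
  have h1 : AnalyticAt ℝ (fun t : ℝ => x (i, A) + t * v (i, A)) s := by fun_prop
  exact (Complex.ofRealCLM.analyticAt _).comp h1

/-- **the Gauss law from two of the equations `x_i^C G_C u = 0`** -/
theorem G_of_xG (S : Setup d F) (hR : Rep M S) {u : BFSS.Conf d → F} (hu : ContDiff ℝ ∞ u)
    {j k : Fin 9} (hjk : j ≠ k) (hj : ∀ x : Cfg d, ∑ C, (x (j, C) : ℂ) • S.G C u x = 0)
    (hk : ∀ x : Cfg d, ∑ C, (x (k, C) : ℂ) • S.G C u x = 0) (C : Fin d) (x : Cfg d) :
    S.G C u x = 0 := by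
  have hF : FiniteDimensional ℂ F := H121.fdim M
  have hFc : CompleteSpace F := FiniteDimensional.complete ℂ F
  have hd : 0 < d := lt_of_le_of_lt (Nat.zero_le _) C.2
  obtain ⟨x0, hD, hJ⟩ := ex_conf M hd hjk
  set γ : ℝ → Cfg d := fun t => x + t • (x0 - x) with hγ
  have hγ1 : γ 1 = x0 := by simp [hγ]
  have hγ0 : γ 0 = x := by simp [hγ]
  let W : Submodule ℂ (Matrix (Fin N) (Fin N) ℂ) :=
    { carrier := {Y | ∃ ξ, An ξ ∧ (∀ t, ξ t ∈ Ann M S u (γ t)) ∧ ξ 1 = Y}
      zero_mem' := ⟨fun _ => 0, fun _ _ _ => analyticAt_const, fun _ => Submodule.zero_mem _, rfl⟩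
      add_mem' := by
        rintro _ _ ⟨ξ, h1, h2, rfl⟩ ⟨η, k1, k2, rfl⟩
        exact ⟨fun t => ξ t + η t, fun a b s => (h1 a b s).add (k1 a b s),
          fun t => Submodule.add_mem _ (h2 t) (k2 t), rfl⟩
      smul_mem' := by
        rintro c _ ⟨ξ, h1, h2, rfl⟩
        exact ⟨fun t => c • ξ t, fun a b s => analyticAt_const.mul (h1 a b s),
          fun t => Submodule.smul_mem _ c (h2 t), rfl⟩ }
  have hW : ∀ i : Fin 9, (∀ x : Cfg d, ∑ C, (x (i, C) : ℂ) • S.G C u x = 0) →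
      Xm M x0 i ∈ W ∧ ∀ Y ∈ W, Xm M x0 i * Y - Y * Xm M x0 i ∈ W := by
    intro i hi
    refine ⟨⟨fun t => Xm M (γ t) i, an_Xm M _ _ i, fun t => Xm_mem M hd hR hu hi _,
      by simp only [hγ1]⟩, ?_⟩
    rintro _ ⟨ξ, h1, h2, rfl⟩
    exact ⟨fun t => Xm M (γ t) i * ξ t - ξ t * Xm M (γ t) i,
      ((an_Xm M _ _ i).mul h1).sub (h1.mul (an_Xm M _ _ i)),
      fun t => comm_mem M hd hR hu hi _ (h2 t), by simp only [hγ1]⟩
  have hT : ∀ B, M.T B ∈ W := fun B =>
    gen_all W (hD ▸ (hW j hj).2) (hJ ▸ (hW k hk).1) (hJ ▸ (hW k hk).2) _ (M.T_traceless B)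
  choose ξ h1 h2 h3 using hT
  set R : ℝ → Matrix (Fin d) (Fin d) ℂ := fun t =>
    Matrix.of fun B A => (ξ A t * M.T B).trace with hRdef
  have hR1 : R 1 = 1 := by
    ext B A
    simp only [hRdef, Matrix.of_apply, h3, M.T_orthonormal, Matrix.one_apply, eq_comm]
  have hRa : ∀ B A s, AnalyticAt ℝ (fun t => R t B A) s := by
    intro B A s
    have h4 : An fun t => ξ A t * M.T B := (h1 A).mul fun _ _ _ => analyticAt_const
    simp only [hRdef, Matrix.of_apply, Matrix.trace, Matrix.diag_apply]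
    exact Finset.analyticAt_fun_sum _ fun a _ => h4 a a s
  have hdet : AnalyticOnNhd ℝ (fun t => (R t).det) Set.univ := by
    intro s _
    simp only [Matrix.det_apply']
    exact Finset.analyticAt_fun_sum _ fun σ _ => analyticAt_const.mul
      (Finset.analyticAt_fun_prod _ fun a _ => hRa _ _ s)
  have hev : ∀ᶠ t in 𝓝[≠] (0 : ℝ), (R t).det ≠ 0 := by
    by_contra hcon
    rw [Filter.not_eventually] at hcon
    have h4 := hdet.eqOn_zero_of_preconnected_of_frequently_eq_zero isPreconnected_univ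
      (Set.mem_univ 0) (hcon.mono fun t ht => not_not.1 ht) (Set.mem_univ 1)
    simp only [hR1, Matrix.det_one, Pi.zero_apply] at h4
    exact one_ne_zero h4
  have hz : ∀ᶠ t in 𝓝[≠] (0 : ℝ), S.G C u (γ t) = 0 := by
    filter_upwards [hev] with t ht
    refine vec_zero (v := fun B => S.G B u (γ t)) ht (fun A => ?_) C
    have h4 := h2 A t 1 (stab_one M u _)
    change Lx M S u (γ t) (mgc (1 : BFSS.SU N).val (ξ A t)) = 0 at h4
    rw [mgc_one] at h4
    exact h4
  have hc : Continuous fun t => S.G C u (γ t) :=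
    (S.contDiff_G C hu).continuous.comp (by rw [hγ]; fun_prop)
  have h5 : Tendsto (fun t => S.G C u (γ t)) (𝓝[≠] 0) (𝓝 (S.G C u (γ 0))) :=
    (hc.tendsto 0).mono_left nhdsWithin_le_nhds
  rw [← hγ0]
  exact tendsto_nhds_unique h5 (tendsto_const_nhds.congr' (hz.mono fun t ht => ht.symm))

end Vale.Agent.N353
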