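import Vale.Agent.P353.BdZ.B17

/-! # N353: solutions of all supercharge equations satisfy `x_a · G u = 0` -/

open MeasureTheory Filter Topology Matrix
open scoped ContDiff

namespace Vale.Agent.N353

open Vale.Agent.P353 Vale.Agent.P353.Z Vale.Agent.P353.Z.U

variable {d : ℕ} {F : Type*} [NormedAddCommGroup F] [InnerProductSpace ℂ F] (S : Setup d F)

theorem tr_anti {c X : Matrix (Fin 16) (Fin 16) ℂ} (h1 : c * c = 1) (h2 : c * X = -(X * c)) :
    X.trace = 0 := by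
  have h3 : X.trace = -X.trace := by
    conv_lhs => rw [← one_mul X, ← h1, mul_assoc, h2, mul_neg, Matrix.trace_neg, ← mul_assoc,
      Matrix.trace_mul_comm, ← mul_assoc, h1, one_mul]
  linear_combination (1 / 2 : ℂ) * h3

theorem tr_six (c a i j : Fin 9) (h : (c = a ∧ 3 ≤ a.val ∧ i.val < 3 ∧ j.val < 3) ∨
    (c = 0 ∧ 3 ≤ a.val ∧ 3 ≤ i.val ∧ 3 ≤ j.val)) :
    (S.g a * (S.Gam * (S.g i * S.g j))).trace = 0 := by
  refine tr_anti (S.g_sq' c) ?_
  have e : ∀ {k : Fin 9}, c ≠ k → ∀ X : Matrix (Fin 16) (Fin 16) ℂ,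
      S.g c * (S.g k * X) = -(S.g k * (S.g c * X)) := fun h X => by
    rw [← mul_assoc, S.g_ac h, neg_mul, mul_assoc]
  simp only [Setup.Gam, mul_assoc]
  rcases h with ⟨rfl, h1, h2, h3⟩ | ⟨rfl, h1, h2, h3⟩
  · have k0 : c ≠ 0 := fun h => by rw [h] at h1; exact absurd h1 (by decide)
    have k1 : c ≠ 1 := fun h => by rw [h] at h1; exact absurd h1 (by decide)
    have k2 : c ≠ 2 := fun h => by rw [h] at h1; exact absurd h1 (by decide)
    have k3 : c ≠ i := fun h => by rw [h] at h1; omega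
    have k4 : c ≠ j := fun h => by rw [h] at h1; omega
    rw [← mul_neg]
    congr 1
    rw [e k0, e k1, e k2, e k3, S.g_ac k4]
    simp only [mul_neg, neg_neg]
  · have k0 : (0 : Fin 9) ≠ a := fun h => by rw [← h] at h1; exact absurd h1 (by decide)
    have k3 : (0 : Fin 9) ≠ i := fun h => by rw [← h] at h2; exact absurd h2 (by decide)
    have k4 : (0 : Fin 9) ≠ j := fun h => by rw [← h] at h3; exact absurd h3 (by decide)
    rw [e k0]
    congr 3
    rw [e (k := 1) (by decide), e (k := 2) (by decide), e k3, S.g_ac k4]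
    simp only [mul_neg, neg_neg]

theorem tr_rc (a : Fin 9) (ha : 3 ≤ a.val) (i j : Fin 9) :
    (rc i j : ℂ) * (S.g a * (S.Gam * S.g2 i j)).trace = 0 := by
  have e : (S.g a * (S.Gam * S.g2 i j)).trace = (1 / 2 : ℂ) *
      ((S.g a * (S.Gam * (S.g i * S.g j))).trace - (S.g a * (S.Gam * (S.g j * S.g i))).trace) := by
    rw [CS.g2, Matrix.mul_smul, Matrix.mul_smul, Matrix.trace_smul, mul_sub, mul_sub,
      Matrix.trace_sub, smul_eq_mul]
  unfold rc
  split_ifs with h1 h2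
  · rw [e, tr_six S a a i j (Or.inl ⟨rfl, ha, h1.1, h1.2⟩),
      tr_six S a a j i (Or.inl ⟨rfl, ha, h1.2, h1.1⟩)]
    simp
  · rw [e, tr_six S 0 a i j (Or.inr ⟨rfl, ha, h2.1, h2.2⟩),
      tr_six S 0 a j i (Or.inr ⟨rfl, ha, h2.2, h2.1⟩)]
    simp
  · simp

theorem contr (a : Fin 9) (B : Matrix (Fin 16) (Fin 16) ℂ) :
    ∑ α, ∑ β, S.g a α β * B α β = (S.g a * B).trace := by
  rw [Finset.sum_comm]
  simp only [Matrix.trace, Matrix.diag, Matrix.mul_apply]
  refine Finset.sum_congr rfl fun β _ => Finset.sum_congr rfl fun α _ => ?_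
  rw [← S.g_symm a, Matrix.transpose_apply, S.g_symm a]

theorem contr2 (a : Fin 9) {ι κ : Type*} [Fintype ι] [Fintype κ] (c : ι → κ → ℂ)
    (B : ι → κ → Matrix (Fin 16) (Fin 16) ℂ) (v : ι → κ → F) :
    ∑ α, ∑ β, S.g a α β • ∑ i, ∑ j, (c i j * B i j α β) • v i j =
      ∑ i, ∑ j, (c i j * (S.g a * B i j).trace) • v i j := by
  simp only [← contr, Finset.smul_sum, Finset.mul_sum, Finset.sum_smul, smul_smul]
  calc _ = ∑ α, ∑ i, ∑ β, ∑ j, (S.g a α β * (c i j * B i j α β)) • v i j :=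
        Finset.sum_congr rfl fun _ _ => Finset.sum_comm
    _ = ∑ i, ∑ α, ∑ β, ∑ j, (S.g a α β * (c i j * B i j α β)) • v i j := Finset.sum_comm
    _ = ∑ i, ∑ α, ∑ j, ∑ β, (S.g a α β * (c i j * B i j α β)) • v i j :=
        Finset.sum_congr rfl fun _ _ => Finset.sum_congr rfl fun _ _ => Finset.sum_comm
    _ = ∑ i, ∑ j, ∑ α, ∑ β, (S.g a α β * (c i j * B i j α β)) • v i j :=
        Finset.sum_congr rfl fun _ _ => Finset.sum_comm
    _ = _ := by simp only [mul_left_comm]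

theorem xG (m : ℝ) {u : Cfg d → F} (hu : ContDiff ℝ ∞ u) (hQ : ∀ α x, S.Qm m α u x = 0)
    (a : Fin 9) (ha : 3 ≤ a.val) (x : Cfg d) : ∑ C, (x (a, C) : ℂ) • S.G C u x = 0 := by
  have h0 : ∀ α β, S.Qm m α (S.Qm m β u) x = 0 := by
    intro α β
    rw [show S.Qm m β u = fun _ => 0 from funext (hQ β)]
    simp [Setup.Qm, Setup.Q, pd]
  have h1 : ∑ α, ∑ β, S.g a α β • ((if α = β then (2 : ℂ) • S.Hm m u x else 0) +
      (m : ℂ) • (∑ i, ∑ j, ((rc i j : ℂ) * (S.Gam * S.g2 i j) α β) • S.J i j u x) +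
      (2 * S.κ : ℂ) • ∑ j, ∑ C, (S.g j α β * (x (j, C) : ℂ)) • S.G C u x) = 0 := by
    refine Finset.sum_eq_zero fun α _ => Finset.sum_eq_zero fun β _ => ?_
    rw [← All.A1 S m α β u hu x, h0, h0, add_zero, smul_zero]
  have h2 : ∑ α, ∑ β, S.g a α β • (if α = β then (2 : ℂ) • S.Hm m u x else 0) = 0 := by
    simp only [smul_ite, smul_zero, Finset.sum_ite_eq, Finset.mem_univ, if_true, ← Finset.sum_smul]
    rw [show ∑ α, S.g a α α = 0 from f10_trace_one S a, zero_smul]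
  have h3 := contr2 S a (fun i j => (rc i j : ℂ)) (fun i j => S.Gam * S.g2 i j)
    fun i j => S.J i j u x
  have h4 := contr2 S a (fun j C => (x (j, C) : ℂ)) (fun j _ => S.g j) fun _ C => S.G C u x
  simp only [tr_rc S a ha, zero_smul, Finset.sum_const_zero] at h3
  simp only [S.trace_g_g, mul_ite, mul_zero, ite_smul, zero_smul] at h4
  rw [Finset.sum_comm (s := Finset.univ (α := Fin 9))] at h4
  simp only [Finset.sum_ite_eq, Finset.mem_univ, if_true] at h4
  simp only [smul_add, Finset.sum_add_distrib, smul_comm (S.g a _ _) (m : ℂ),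
    smul_comm (S.g a _ _) (2 * S.κ : ℂ), ← Finset.smul_sum, mul_comm (S.g _ _ _)] at h1
  rw [h2, h3, h4, smul_zero, zero_add, zero_add] at h1
  have h5 : (2 * S.κ : ℂ) ≠ 0 := mul_ne_zero two_ne_zero (by exact_mod_cast S.κ_pos.ne')
  have h6 := (smul_eq_zero.1 h1).resolve_left h5
  simp only [mul_comm _ (16 : ℂ), mul_smul, ← Finset.smul_sum] at h6
  exact (smul_eq_zero.1 h6).resolve_left (by norm_num)

end Vale.Agent.N353
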