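import Vale.Agent.N353.Br
import Vale.Agent.N353.XG
import Vale.Agent.N353.Inv

/-! # N353: the Gauss law and the zero modes for every gauge group -/

open MeasureTheory Filter Topology
open scoped ContDiff

namespace Vale.Agent.N353

open Vale.Agent.P353 Vale.Agent.P353.BFSS Vale.Agent.P353.H121

variable {N d : ℕ} {F : Type*} [NormedAddCommGroup F] [InnerProductSpace ℂ F] (M : BFSS.Model N d F)

theorem gauss (m : ℝ) : GaussLaw M (M.massQ m) := by
  intro Ψ hloc hW
  have hF : FiniteDimensional ℂ F := fdim M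
  have h0 : ∃ Φ : Conf d → F, ContDiff ℝ ∞ Φ ∧ Ψ =ᵐ[leb d] Φ := by
    refine ell_reg (cA_symm M 0) (mB_symm M m 0) mp_smooth (Real.sqrt_nonneg 2)
      (elliptic M 0) hloc fun φ h1 h2 => ?_
    rw [← hW 0 φ h1 h2, leb]
    exact integral_congr_ae (Eventually.of_forall fun x => by simp only [massQ_eq])
  obtain ⟨Φ, hs, hae⟩ := h0
  obtain ⟨S, hS⟩ := Z.U.setS M
  have hQ : ∀ α x, S.Qm m α Φ x = 0 := fun α x => by
    rw [← H48.mass_Q hS m α (smooth_diff hs x)]
    exact mclassical M hs hae α (hW α) x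
  exact ⟨Φ, hs, hae, (inv_of_xG M S hS hs (j := 3) (k := 4) (by decide)
    (xG S m hs hQ 3 (by decide)) (xG S m hs hQ 4 (by decide))).2⟩

theorem massQ_zero : M.massQ 0 = M.Q :=
  funext fun α => funext fun u => funext fun x => mQ_zero M α u x

theorem gauss0 : GaussLaw M M.Q := massQ_zero M ▸ gauss M 0

theorem modes0 (hN : 2 ≤ N) (K : Subgroup (SU N)) : ZeroModes M K M.Q 1 := by
  obtain ⟨Φ, h1, h2, h3⟩ := one_classical hN M
  rw [← massQ_zero M]
  refine zeroModes M K 0 (gauss M 0) (Φ := fun _ => Φ) ⟨fun _ => h1, fun c hc => ?_, fun Ψ => ?_⟩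
  · funext j
    by_contra h
    have h4 : ∀ x, Φ x = 0 := fun x => by
      have h5 := hc x
      rw [Fin.sum_univ_one, Subsingleton.elim 0 j] at h5
      exact (smul_eq_zero.1 h5).resolve_left h
    simp [h4] at h2
  · rw [h3]
    simp only [Fin.sum_univ_one]
    exact ⟨fun ⟨c, hc⟩ => ⟨fun _ => c, hc⟩, fun ⟨c, hc⟩ => ⟨c 0, hc⟩⟩

theorem modes_pos (hN : 2 ≤ N) (K : Subgroup (SU N)) {m : ℝ} (hm : 0 < m) :
    ZeroModes M K (M.massQ m) (Fintype.card (Nat.Partition N)) := by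
  obtain ⟨Φ, hΦ⟩ := basis hN M hm
  exact zeroModes M K m (gauss M m) hΦ

end Vale.Agent.N353
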