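import Vale.Agent.N353.Den
import Vale.Agent.P353B91.Abs
import Vale.Agent.P353.H121.Fin

/-! # N353: the Hamiltonian on the space of `K`-invariant vectors -/

open MeasureTheory Filter Topology
open scoped ContDiff

namespace Vale.Agent.N353

open Vale.Agent.P353 Vale.Agent.P353.BFSS Vale.Agent.P353.H121
open Vale.Agent.P353B91 (GH)

universe u

variable {N d : ℕ} {F : Type u} [NormedAddCommGroup F] [InnerProductSpace ℂ F] (M : BFSS.Model N d F)
  (K : Subgroup (SU N)) (m : ℝ)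

/-- the `K`-invariant vectors -/
def Sp : Submodule ℂ (Lp F 2 (leb d)) where
  carrier := {Ψ | Invariant M K Ψ}
  zero_mem' U _ := by
    have h := Lp.coeFn_zero F 2 (leb d)
    filter_upwards [h, (act_mp M U).quasiMeasurePreserving.ae h] with x h1 h2
    rw [h1, h2, Pi.zero_apply, Pi.zero_apply, map_zero]
  add_mem' {a b} ha hb U hU := by
    have h := Lp.coeFn_add a b
    filter_upwards [h, (act_mp M U).quasiMeasurePreserving.ae h, ha U hU, hb U hU]
      with x h1 h2 h3 h4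
    rw [h1, h2, Pi.add_apply, Pi.add_apply, map_add, h3, h4]
  smul_mem' c a ha U hU := by
    have h := Lp.coeFn_smul c a
    filter_upwards [h, (act_mp M U).quasiMeasurePreserving.ae h, ha U hU] with x h1 h2 h3
    rw [h1, h2, Pi.smul_apply, Pi.smul_apply, map_smul, h3]

theorem isClosed_sp : IsClosed (Sp M K : Set (Lp F 2 (leb d))) := by
  refine IsSeqClosed.isClosed fun u Ψ hu h U hU => ?_
  obtain ⟨s, -, hs⟩ := (tendstoInMeasure_of_tendsto_Lp h).exists_seq_tendsto_ae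
  filter_upwards [hs, (act_mp M U).quasiMeasurePreserving.ae hs,
    ae_all_iff.2 fun n => hu (s n) U hU] with x h1 h2 h3
  refine tendsto_nhds_unique h2 ?_
  simp only [h3]
  exact ((M.S U).continuous.tendsto _).comp h1

theorem complete_sp : CompleteSpace (Sp M K) :=
  have := fdim M
  have : CompleteSpace F := FiniteDimensional.complete ℂ F
  (isClosed_sp M K).completeSpace_coe

theorem mQ_lin (α : Fin 16) (c : ℂ) {u v : Conf d → F} (hu : ContDiff ℝ ∞ u)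
    (hv : ContDiff ℝ ∞ v) (x : Conf d) :
    M.massQ m α (fun y => u y + c • v y) x = M.massQ m α u x + c • M.massQ m α v x := by
  have h1 : DifferentiableAt ℝ (fun y => c • v y) x := (smooth_diff hv x).fun_const_smul c
  have hd : DifferentiableAt ℝ (fun y => u y + c • v y) x := (smooth_diff hu x).fun_add h1
  simp only [massQ_eq]
  rw [Dop_fd _ _ _ (smooth_diff hu x), Dop_fd _ _ _ (smooth_diff hv x), Dop_fd _ _ _ hd,
    fderiv_fun_add (smooth_diff hu x) h1, fderiv_fun_const_smul (smooth_diff hv x)]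
  simp only [_root_.add_apply, _root_.smul_apply, map_add, map_smul, Finset.sum_add_distrib,
    smul_add, Finset.smul_sum, smul_comm c]
  abel

/-- approximation of an element of `Sp M K` -/
abbrev LA (u : ℕ → Conf d → F) (Ψ : Sp M K) : Prop :=
  Approx M K (M.massQ m) (fun Φ : Sp M K => (Φ.1 : Conf d → F)) u Ψ

variable {M K}

theorem core_lin (c : ℂ) {u v : Conf d → F} (hu : Core M K u) (hv : Core M K v) :
    Core M K fun x => u x + c • v x := by
  refine ⟨hu.1.add (hv.1.const_smul c), hu.2.1.add (hv.2.1.smul_left (f := fun _ => c)),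
    fun U hU x => ?_⟩
  simp only [hu.2.2 U hU, hv.2.2 U hU, map_add, map_smul]

theorem core_zero : Core M K fun _ => 0 :=
  ⟨contDiff_const, HasCompactSupport.zero, fun _ _ _ => (map_zero _).symm⟩

/-- sixteen copies of `L²` -/
abbrev L16 (d : ℕ) (F : Type*) [NormedAddCommGroup F] [InnerProductSpace ℂ F] : Type _ :=
  PiLp 2 fun _ : Fin 16 => Lp F 2 (leb d)

/-- `Q_α u` as a vector -/
noncomputable def tq (α : Fin 16) {u : Conf d → F} (hu : Core M K u) : Lp F 2 (leb d) :=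
  (mQ_mem M m α hu.1 hu.2.1).toLp _

/-- the vector `(Q_α u / 4)_α` -/
noncomputable def TQ {u : Conf d → F} (hu : Core M K u) : L16 d F :=
  WithLp.toLp 2 fun α => (1 / 4 : ℂ) • tq m α hu

/-- a core function as a vector -/
noncomputable def cv {u : Conf d → F} (hu : Core M K u) : Sp M K :=
  ⟨(cs_mem hu.1 hu.2.1).toLp u, fun U hU => by
    have h := (cs_mem hu.1 hu.2.1).coeFn_toLp
    filter_upwards [h, (act_mp M U).quasiMeasurePreserving.ae h] with x h1 h2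
    rw [h1, h2, hu.2.2 U hU]⟩

theorem form_TQ {φ u : Conf d → F} (hφ : Core M K φ) (hu : Core M K u) :
    form (M.massQ m) φ u = inner ℂ (TQ m hφ) (TQ m hu) := by
  rw [form, PiLp.inner_apply, Finset.mul_sum]
  refine Finset.sum_congr rfl fun α _ => ?_
  simp only [TQ, tq, inner_smul_left, inner_smul_right, map_div₀, map_one, map_ofNat, inner_toLp]
  ring

theorem cv_lin (c : ℂ) {u v : Conf d → F} (hu : Core M K u) (hv : Core M K v) :
    cv (core_lin c hu hv) = cv hu + c • cv hv :=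
  Subtype.ext rfl

theorem TQ_lin (c : ℂ) {u v : Conf d → F} (hu : Core M K u) (hv : Core M K v) :
    TQ m (core_lin c hu hv) = TQ m hu + c • TQ m hv := by
  ext1 α
  have h : tq m α (core_lin c hu hv) = tq m α hu + c • tq m α hv := by
    unfold tq
    rw [← MemLp.toLp_const_smul, ← MemLp.toLp_add]
    congr 1
    ext x
    exact mQ_lin M m α c hu.1 hv.1 x
  simp only [TQ, PiLp.add_apply, PiLp.smul_apply, h, smul_add, smul_comm c]

theorem pair_zero : (cv (core_zero (M := M) (K := K)), TQ m (core_zero (M := M) (K := K))) = 0 := by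
  have h1 := cv_lin 1 (core_zero (M := M) (K := K)) core_zero
  have h2 := TQ_lin m 1 (core_zero (M := M) (K := K)) core_zero
  simp only [one_smul, add_zero, left_eq_add] at h1 h2
  rw [h1, h2]
  rfl

variable (M K) in
/-- the graph of the supercharges on the core -/
def G0 : Submodule ℂ (Sp M K × L16 d F) where
  carrier := {p | ∃ u, ∃ hu : Core M K u, p = (cv hu, TQ m hu)}
  zero_mem' := ⟨_, core_zero, (pair_zero m).symm⟩
  add_mem' := by
    rintro _ _ ⟨u, hu, rfl⟩ ⟨v, hv, rfl⟩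
    refine ⟨_, core_lin 1 hu hv, ?_⟩
    rw [cv_lin 1 hu hv, TQ_lin m 1 hu hv, one_smul, one_smul]
    rfl
  smul_mem' := by
    rintro c _ ⟨v, hv, rfl⟩
    refine ⟨_, core_lin c core_zero hv, ?_⟩
    have h1 : cv (core_zero (M := M) (K := K)) = 0 := congrArg Prod.fst (pair_zero m)
    have h2 : TQ m (core_zero (M := M) (K := K)) = 0 := congrArg Prod.snd (pair_zero m)
    rw [cv_lin c core_zero hv, TQ_lin m c core_zero hv, h1, h2, zero_add, zero_add]
    rfl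

theorem cv_tendsto {u : ℕ → Conf d → F} (hu : ∀ n, Core M K (u n)) (Ψ : Sp M K) :
    Tendsto (fun n => ∫ x, ‖u n x - Ψ.1 x‖ ^ 2 ∂leb d) atTop (𝓝 0) ↔
      Tendsto (fun n => cv (hu n)) atTop (𝓝 Ψ) := by
  have e : ∀ n, ∫ x, ‖u n x - Ψ.1 x‖ ^ 2 ∂leb d = ‖cv (hu n) - Ψ‖ ^ 2 := fun n => by
    rw [← norm_sub_sq (cs_mem (hu n).1 (hu n).2.1) (Lp.memLp Ψ.1), Lp.toLp_coeFn]
    rfl
  simp only [e]
  rw [tendsto_iff_norm_sub_tendsto_zero (f := fun n => cv (hu n))]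
  refine ⟨fun h => ?_, fun h => by simpa using h.pow 2⟩
  simpa using h.sqrt

theorem cauchy_iff {u : ℕ → Conf d → F} (hu : ∀ n, Core M K (u n)) :
    Tendsto (fun p : ℕ × ℕ => form (M.massQ m) (u p.1 - u p.2) (u p.1 - u p.2)) atTop (𝓝 0) ↔
      CauchySeq fun n => TQ m (hu n) := by
  have h : ∀ p : ℕ × ℕ, form (M.massQ m) (u p.1 - u p.2) (u p.1 - u p.2) =
      ((dist (TQ m (hu p.1)) (TQ m (hu p.2)) ^ 2 : ℝ) : ℂ) := by
    intro p
    have e : u p.1 - u p.2 = fun x => u p.1 x + (-1 : ℂ) • u p.2 x := by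
      funext x
      rw [Pi.sub_apply, neg_one_smul, sub_eq_add_neg]
    rw [e, form_TQ m (core_lin (-1) (hu p.1) (hu p.2)) (core_lin (-1) (hu p.1) (hu p.2)),
      TQ_lin m (-1) (hu p.1) (hu p.2), inner_self_eq_norm_sq_to_K, dist_eq_norm, neg_one_smul,
      sub_eq_add_neg]
    push_cast
    rfl
  simp only [h]
  rw [cauchySeq_iff_tendsto_dist_atTop_0]
  refine ⟨fun h => ?_, fun h => ?_⟩
  · have h2 := ((Complex.continuous_re.tendsto 0).comp h).sqrt
    simpa [Function.comp_def, ← Complex.ofReal_pow] using h2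
  · have h2 := (Complex.continuous_ofReal.tendsto _).comp (h.pow 2)
    simpa [Function.comp_def] using h2

variable (M K) in
/-- the closure of the graph -/
noncomputable def G1 : Submodule ℂ (Sp M K × L16 d F) := (G0 M K m).topologicalClosure

theorem mem_G1 (p : Sp M K × L16 d F) : p ∈ G1 M K m ↔ ∃ u : ℕ → Conf d → F,
    ∃ hu : ∀ n, Core M K (u n), Tendsto (fun n => cv (hu n)) atTop (𝓝 p.1) ∧
      Tendsto (fun n => TQ m (hu n)) atTop (𝓝 p.2) := by
  refine mem_closure_iff_seq_limit.trans ⟨?_, ?_⟩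
  · rintro ⟨s, hs, h⟩
    choose u hu e using hs
    rw [funext e] at h
    exact ⟨u, hu, (continuous_fst.tendsto p).comp h, (continuous_snd.tendsto p).comp h⟩
  · rintro ⟨u, hu, h1, h2⟩
    exact ⟨fun n => (cv (hu n), TQ m (hu n)), fun n => ⟨_, hu n, rfl⟩, h1.prodMk_nhds h2⟩

theorem of_approx {u : ℕ → Conf d → F} {Ψ : Sp M K} (h : LA M K m u Ψ) :
    ∃ w, (Ψ, w) ∈ G1 M K m ∧ Tendsto (fun n => TQ m (h.1 n)) atTop (𝓝 w) := by
  have hF := fdim M
  have hFc : CompleteSpace F := FiniteDimensional.complete ℂ F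
  obtain ⟨w, hw⟩ := cauchySeq_tendsto_of_complete ((cauchy_iff m h.1).1 h.2.2)
  exact ⟨w, (mem_G1 m _).2 ⟨u, h.1, (cv_tendsto h.1 Ψ).1 h.2.1, hw⟩, hw⟩

theorem to_approx {p : Sp M K × L16 d F} (h : p ∈ G1 M K m) :
    ∃ u, ∃ hu : LA M K m u p.1,
      Tendsto (fun n => TQ m (hu.1 n)) atTop (𝓝 p.2) := by
  obtain ⟨u, hu, h1, h2⟩ := (mem_G1 m p).1 h
  exact ⟨u, ⟨hu, (cv_tendsto hu _).2 h1, (cauchy_iff m hu).2 h2.cauchySeq⟩, h2⟩

theorem G1_dense (y : Sp M K) (h : ∀ p ∈ G1 M K m, inner ℂ p.1 y = 0) : y = 0 := by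
  refine Subtype.ext (core_dense M K y.1 y.2 fun u hu => ?_)
  have h1 := h (cv hu, TQ m hu) ((G0 M K m).le_topologicalClosure ⟨u, hu, rfl⟩)
  rw [← inner_toLp (Lp.memLp y.1) (cs_mem hu.1 hu.2.1), Lp.toLp_coeFn, inner_eq_zero_symm]
  exact h1

theorem G1_weak {p : Sp M K × L16 d F} (h : p ∈ G1 M K m) (α : Fin 16) {v : Conf d → F}
    (hv : ContDiff ℝ ∞ v) (hc : HasCompactSupport v) :
    inner ℂ ((cs_mem hv hc).toLp v) (p.2 α) =
      (1 / 4 : ℂ) * inner ℂ ((mQ_mem M m α hv hc).toLp (M.massQ m α v)) p.1.1 := by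
  obtain ⟨u, hu, h1, h2⟩ := (mem_G1 m _).1 h
  have h3 : Tendsto (fun n => (1 / 4 : ℂ) • tq m α (hu n)) atTop (𝓝 (p.2 α)) :=
    ((PiLp.continuous_apply 2 _ α).tendsto p.2).comp h2
  have h4 : Tendsto (fun n => (cv (hu n)).1) atTop (𝓝 p.1.1) :=
    (continuous_subtype_val.tendsto p.1).comp h1
  have h5 := (tendsto_const_nhds (x := (cs_mem hv hc).toLp v)).inner (𝕜 := ℂ) h3
  have h6 := ((tendsto_const_nhds (x := (mQ_mem M m α hv hc).toLp (M.massQ m α v))).inner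
    (𝕜 := ℂ) h4).const_mul (1 / 4 : ℂ)
  have h7 : (fun n => (inner ℂ ((cs_mem hv hc).toLp v) ((1 / 4 : ℂ) • tq m α (hu n)) : ℂ)) =
      fun n => (1 / 4 : ℂ) *
        inner ℂ ((mQ_mem M m α hv hc).toLp (M.massQ m α v)) (cv (hu n)).1 := by
    ext n
    rw [inner_smul_right, tq, inner_toLp, ← mQ_symm M m α hv hc (hu n).1]
    exact congrArg _ (inner_toLp _ (cs_mem (hu n).1 (hu n).2.1)).symm
  rw [h7] at h5
  exact tendsto_nhds_unique h5 h6

theorem G1_uniq {Ψ : Sp M K} {w w' : L16 d F} (h : (Ψ, w) ∈ G1 M K m) (h' : (Ψ, w') ∈ G1 M K m) :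
    w = w' := by
  have h1 := (G1 M K m).sub_mem h h'
  rw [Prod.mk_sub_mk, sub_self] at h1
  refine sub_eq_zero.1 ?_
  ext1 α
  refine P353B91.test_zero _ fun v hv hc => ?_
  have h8 := G1_weak m h1 α hv hc
  rw [Submodule.coe_zero, inner_zero_right, mul_zero, inner_eq_zero_symm] at h8
  rw [← inner_toLp (Lp.memLp _) (cs_mem hv hc), Lp.toLp_coeFn]
  exact h8

theorem form_lim {u v : ℕ → Conf d → F} {Φ Ψ : Sp M K} (hu : LA M K m u Φ)
    (hv : LA M K m v Ψ) {w w' : L16 d F} (hw : (Φ, w) ∈ G1 M K m)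
    (hw' : (Ψ, w') ∈ G1 M K m) :
    Tendsto (fun n => form (M.massQ m) (u n) (v n)) atTop (𝓝 (inner ℂ w w')) := by
  obtain ⟨z, h1, h2⟩ := of_approx m hu
  obtain ⟨z', h1', h2'⟩ := of_approx m hv
  rw [G1_uniq m hw h1, G1_uniq m hw' h1']
  simp only [fun n => form_TQ m (hu.1 n) (hv.1 n)]
  exact h2.inner h2'

theorem assoc_iff {D : Set (Sp M K)} {q : Sp M K → Sp M K → ℂ}
    (h1 : ∀ Ψ, Ψ ∈ D ↔ ∃ u, LA M K m u Ψ)
    (h2 : ∀ u v (Φ Ψ : Sp M K), LA M K m u Φ → LA M K m v Ψ →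
      Tendsto (fun n => form (M.massQ m) (u n) (v n)) atTop (𝓝 (q Φ Ψ))) (Ψ η : Sp M K) :
    (Ψ ∈ D ∧ ∀ Φ ∈ D, q Φ Ψ = inner ℂ Φ η) ↔ GH (G1 M K m) Ψ η := by
  have hq : ∀ Φ Ψ w w', (Φ, w) ∈ G1 M K m → (Ψ, w') ∈ G1 M K m → q Φ Ψ = inner ℂ w w' := by
    intro Φ Ψ w w' hw hw'
    obtain ⟨u, hu, -⟩ := to_approx m hw
    obtain ⟨v, hv, -⟩ := to_approx m hw'
    exact tendsto_nhds_unique (h2 u v _ _ hu hv) (form_lim m hu hv hw hw')
  have hD : ∀ Φ, Φ ∈ D ↔ ∃ w, (Φ, w) ∈ G1 M K m := by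
    refine fun Φ => (h1 Φ).trans ⟨fun ⟨u, hu⟩ => ?_, fun ⟨w, hw⟩ => ?_⟩
    · obtain ⟨w, hw, -⟩ := of_approx m hu
      exact ⟨w, hw⟩
    · obtain ⟨u, hu, -⟩ := to_approx m hw
      exact ⟨u, hu⟩
  constructor
  · rintro ⟨h1, h2⟩
    obtain ⟨w, hw⟩ := (hD Ψ).1 h1
    refine ⟨w, hw, fun p hp => ?_⟩
    exact (hq p.1 Ψ p.2 w hp hw).symm.trans (h2 p.1 ((hD _).2 ⟨p.2, hp⟩))
  · rintro ⟨w, hw, h2⟩
    refine ⟨(hD Ψ).2 ⟨w, hw⟩, fun Φ hΦ => ?_⟩
    obtain ⟨w', hw'⟩ := (hD Φ).1 hΦ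
    rw [hq Φ Ψ w' w hw' hw]
    exact h2 _ hw'

variable (M K) in
theorem ex_closure : ∃ q : Sp M K → Sp M K → ℂ, ∀ u v (Φ Ψ : Sp M K), LA M K m u Φ → LA M K m v Ψ →
    Tendsto (fun n => form (M.massQ m) (u n) (v n)) atTop (𝓝 (q Φ Ψ)) := by
  classical
  let T : Sp M K → L16 d F := fun Ψ => if h : ∃ w, (Ψ, w) ∈ G1 M K m then h.choose else 0
  have hT : ∀ u (Ψ : Sp M K), LA M K m u Ψ → (Ψ, T Ψ) ∈ G1 M K m := by
    intro u Ψ h
    obtain ⟨w, hw, -⟩ := of_approx m h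
    have h1 : ∃ w, (Ψ, w) ∈ G1 M K m := ⟨w, hw⟩
    simp only [T, dif_pos h1]
    exact h1.choose_spec
  exact ⟨fun Φ Ψ => inner ℂ (T Φ) (T Ψ),
    fun u v Φ Ψ hu hv => form_lim m hu hv (hT _ _ hu) (hT _ _ hv)⟩

theorem ker_iff (hG : GaussLaw M (M.massQ m)) (Ψ : Sp M K) :
    GH (G1 M K m) Ψ 0 ↔ M.IsGroundState m Ψ.1 := by
  constructor
  · rintro ⟨w, hw, h⟩
    have h3 := h _ hw
    rw [inner_zero_right, inner_self_eq_zero] at h3
    have h4 : ∀ α, MWeak M m α Ψ.1 := by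
      intro α v hv hc
      have h5 := G1_weak m hw α hv hc
      rw [show w = 0 from h3, PiLp.zero_apply, inner_zero_right] at h5
      rw [← inner_toLp (mQ_mem M m α hv hc) (Lp.memLp Ψ.1), Lp.toLp_coeFn]
      exact (mul_eq_zero.1 h5.symm).resolve_left (by norm_num)
    obtain ⟨Φ, -, h6, h7⟩ := hG Ψ.1 ((Lp.memLp Ψ.1).locallyIntegrable (by norm_num)) h4
    refine (ground_iff_all M).2 ⟨Lp.memLp _, fun U => ?_, h4⟩
    filter_upwards [h6, (act_mp M U).quasiMeasurePreserving.ae h6] with x e1 e2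
    rw [e1, e2, h7]
  · rintro ⟨-, u, hu, h1, h2⟩
    have hc : ∀ n, Core M K (u n) := fun n => ⟨(hu n).1, (hu n).2.1, fun U _ => (hu n).2.2 U⟩
    refine ⟨0, (mem_G1 m _).2 ⟨u, hc, (cv_tendsto hc Ψ).1 h1, ?_⟩, fun p _ => by simp⟩
    have e : ∀ n, ‖TQ m (hc n)‖ = Real.sqrt (M.massForm m (u n)) := by
      intro n
      rw [← Real.sqrt_sq (norm_nonneg (TQ m (hc n))), PiLp.norm_sq_eq_of_L2, Model.massForm,
        Finset.mul_sum]
      congr 1
      refine Finset.sum_congr rfl fun α _ => ?_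
      rw [← norm_toLp_sq (mQ_mem M m α (hc n).1 (hc n).2.1)]
      simp only [TQ, tq, norm_smul, mul_pow]
      norm_num
    rw [tendsto_zero_iff_norm_tendsto_zero]
    simp only [e]
    simpa using h2.sqrt

theorem ker_dim {E : Type*} [AddCommGroup E] [Module ℂ E] (H : E →ₗ.[ℂ] E) {n : ℕ} (b : Fin n → E)
    (h1 : ∀ j, (b j, 0) ∈ H.graph) (h2 : ∀ c : Fin n → ℂ, ∑ j, c j • b j = 0 → c = 0)
    (h3 : ∀ y : H.domain, H y = 0 → ∃ c : Fin n → ℂ, ∑ j, c j • b j = y.1) :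
    Module.finrank ℂ (LinearMap.ker H.toFun) = n := by
  have hb : ∀ j, ∃ y : LinearMap.ker H.toFun, y.1.1 = b j := fun j => by
    obtain ⟨x, e1, e2⟩ := (H.mem_graph_iff).1 (h1 j)
    exact ⟨⟨x, e2⟩, e1⟩
  choose a ha using hb
  have hs : ∀ c : Fin n → ℂ, (∑ j, c j • a j).1.1 = ∑ j, c j • b j := fun c => by
    simp only [Submodule.coe_sum, Submodule.coe_smul, ha]
  have hli : LinearIndependent ℂ a := by
    refine Fintype.linearIndependent_iff.2 fun c hc j => congrFun (h2 c ?_) j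
    rw [← hs, hc]
    rfl
  have hsp : ⊤ ≤ Submodule.span ℂ (Set.range a) := by
    intro y _
    obtain ⟨c, hc⟩ := h3 y.1 y.2
    exact (Submodule.mem_span_range_iff_exists_fun ℂ).2
      ⟨c, Subtype.ext (Subtype.ext ((hs c).trans hc))⟩
  rw [Module.finrank_eq_card_basis (Module.Basis.mk hli hsp), Fintype.card_fin]

theorem coe_comb {n : ℕ} {Φ : Fin n → Conf d → F} (b : Fin n → Sp M K)
    (hb : ∀ j, ∀ᵐ x ∂leb d, (b j).1 x = Φ j x) (c : Fin n → ℂ) :
    ∀ᵐ x ∂leb d, (∑ j, c j • b j).1 x = ∑ j, c j • Φ j x := by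
  have e : (∑ j, c j • b j).1 = ∑ j, c j • (b j).1 := by
    simp only [Submodule.coe_sum, Submodule.coe_smul]
  rw [e]
  filter_upwards [Lp.coeFn_fun_finsetSum Finset.univ fun j => c j • (b j).1,
    ae_all_iff.2 fun j => Lp.coeFn_smul (c j) (b j).1, ae_all_iff.2 hb] with x a1 a2 a3
  rw [a1]
  exact Finset.sum_congr rfl fun j _ => by rw [a2, Pi.smul_apply, a3]

end Vale.Agent.N353
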