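import Vale.Agent.P353.H48.Defs

/-! # P353: the matrix model with an arbitrary gauge group `K ≤ SU(N)` -/

open MeasureTheory Filter Topology
open scoped ContDiff

namespace Vale.Agent.N353

open Vale.Agent.P353.BFSS

universe u

variable {N d : ℕ} {F : Type u} [NormedAddCommGroup F] [InnerProductSpace ℂ F] (M : Model N d F)
  (K : Subgroup (SU N)) (Q : Fin 16 → (Conf d → F) → Conf d → F)

/-- `Ψ` is invariant under `K`, almost everywhere. -/
def Invariant (Ψ : Conf d → F) : Prop :=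
  ∀ U ∈ K, ∀ᵐ x ∂leb d, Ψ (M.act U x) = M.S U (Ψ x)

/-- The form core: smooth, compactly supported, `K`-invariant wave functions. -/
def Core (u : Conf d → F) : Prop :=
  ContDiff ℝ ∞ u ∧ HasCompactSupport u ∧ ∀ U ∈ K, ∀ x, u (M.act U x) = M.S U (u x)

/-- The polarized form `q(φ, u) = (1/16) ∑ α, ⟨Q_α φ, Q_α u⟩`. -/
noncomputable def form (φ u : Conf d → F) : ℂ :=
  (1 / 16 : ℂ) * ∑ α, ∫ x, inner ℂ (Q α φ x) (Q α u x) ∂leb d

section

variable {E : Type u} [NormedAddCommGroup E] [InnerProductSpace ℂ E] (ι : E → Conf d → F)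

/-- `ι` identifies `E` with the space of the `K`-invariant vectors of `L²(ℝ^{9d}; F)`. -/
structure IsSpace : Prop where
  memLp : ∀ Ψ, MemLp (ι Ψ) 2 (leb d)
  inv : ∀ Ψ, Invariant M K (ι Ψ)
  onto : ∀ f, MemLp f 2 (leb d) → Invariant M K f → ∃ Ψ, ∀ᵐ x ∂leb d, ι Ψ x = f x
  inner_eq : ∀ Φ Ψ, inner ℂ Φ Ψ = ∫ x, inner ℂ (ι Φ x) (ι Ψ x) ∂leb d

/-- The core functions `u n` converge to `Ψ` in `L²` and form a Cauchy sequence for `q`. -/
def Approx (u : ℕ → Conf d → F) (Ψ : E) : Prop :=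
  (∀ n, Core M K (u n)) ∧ Tendsto (fun n => ∫ x, ‖u n x - ι Ψ x‖ ^ 2 ∂leb d) atTop (𝓝 0) ∧
    Tendsto (fun p : ℕ × ℕ => form Q (u p.1 - u p.2) (u p.1 - u p.2)) atTop (𝓝 0)

/-- `H` is the operator associated with the closure `q`, with domain `D`, of the form:
`H Ψ = η` if and only if `Ψ ∈ D` and `q(Φ, Ψ) = ⟨Φ, η⟩` for all `Φ ∈ D`. -/
def IsHamiltonian (H : E →ₗ.[ℂ] E) : Prop :=
  ∃ (D : Set E) (q : E → E → ℂ), (∀ Ψ, Ψ ∈ D ↔ ∃ u, Approx M K Q ι u Ψ) ∧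
    (∀ u v Φ Ψ, Approx M K Q ι u Φ → Approx M K Q ι v Ψ →
      Tendsto (fun n => form Q (u n) (v n)) atTop (𝓝 (q Φ Ψ))) ∧
    ∀ Ψ η, (Ψ, η) ∈ H.graph ↔ Ψ ∈ D ∧ ∀ Φ ∈ D, q Φ Ψ = inner ℂ Φ η

/-- `H` is nonnegative, `dim ker H = n`, and every element of `ker H` is `SU(N)`-invariant. -/
def Kernel (H : E →ₗ.[ℂ] E) (n : ℕ) : Prop :=
  (∀ Ψ : H.domain, 0 ≤ (inner ℂ Ψ.1 (H Ψ)).re) ∧ Module.finrank ℂ (LinearMap.ker H.toFun) = n ∧
    ∀ Ψ : H.domain, H Ψ = 0 → Invariant M ⊤ (ι Ψ.1)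

end

/-- The Hilbert space of the `K`-invariant vectors of `L²(ℝ^{9d}; F)` exists; on it there is
exactly one Hamiltonian `H`; it is self-adjoint and nonnegative, `dim ker H = n`, and every element
of `ker H` is invariant under all of `SU(N)`. -/
def ZeroModes (n : ℕ) : Prop :=
  (∃ (E : Type u) (_ : NormedAddCommGroup E) (_ : InnerProductSpace ℂ E) (_ : CompleteSpace E)
    (ι : E → Conf d → F), IsSpace M K ι) ∧
  ∀ (E : Type u) [NormedAddCommGroup E] [InnerProductSpace ℂ E] [CompleteSpace E]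
    (ι : E → Conf d → F), IsSpace M K ι → (∃! H, IsHamiltonian M K Q ι H) ∧
      ∀ H, IsHamiltonian M K Q ι H → IsSelfAdjoint H ∧ Kernel M ι H n

/-- Every locally integrable solution of the sixteen equations `Q_α Ψ = 0` in the sense of
distributions is almost everywhere equal to a smooth `SU(N)`-invariant function. -/
def GaussLaw : Prop :=
  ∀ Ψ : Conf d → F, LocallyIntegrable Ψ (leb d) →
    (∀ α φ, ContDiff ℝ ∞ φ → HasCompactSupport φ → ∫ x, inner ℂ (Q α φ x) (Ψ x) ∂leb d = 0) →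
    ∃ Φ, ContDiff ℝ ∞ Φ ∧ (∀ᵐ x ∂leb d, Ψ x = Φ x) ∧ ∀ U x, Φ (M.act U x) = M.S U (Φ x)

end Vale.Agent.N353
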